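import Mathlib.Combinatorics.SetFamily.FourFunctions
import Mathlib.Tactic

/-!
P050: the cover inequality for positive log-supermodular functions of finitely many bits (Ruozzi).

If `F` on `N` copies of the bits is log-supermodular and is at most the product of `g` over the
order statistics, then the sum of `F` is at most the `N`-th power of the sum of `g`. The bits are
summed out one fibre at a time.
-/

noncomputable section

namespace Vale.Agent.P050

open Finset

/-- Log-supermodular. -/
def LSM {α : Type*} [Lattice α] (f : α → ℝ) : Prop :=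
  ∀ a b, f a * f b ≤ f (a ⊔ b) * f (a ⊓ b)

lemma LSM.mul {α : Type*} [Lattice α] {f g : α → ℝ} (hf : LSM f) (hg : LSM g) (f0 : ∀ a, 0 ≤ f a)
    (g0 : ∀ a, 0 ≤ g a) : LSM fun a => f a * g a := fun a b => by
  have h := mul_le_mul (hf a b) (hg a b) (mul_nonneg (g0 a) (g0 b))
    (mul_nonneg (f0 _) (f0 _))
  linarith

lemma LSM.prod {α ι : Type*} [Lattice α] (s : Finset ι) {f : ι → α → ℝ}
    (hf : ∀ i ∈ s, LSM (f i)) (f0 : ∀ i ∈ s, ∀ a, 0 ≤ f i a) :
    LSM fun a => ∏ i ∈ s, f i a := fun a b => by
  simp only [← prod_mul_distrib]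
  exact prod_le_prod (fun i hi => mul_nonneg (f0 i hi a) (f0 i hi b)) fun i hi => hf i hi a b

lemma LSM.comp {α β : Type*} [Lattice α] [Lattice β] {f : β → ℝ} (hf : LSM f) (φ : α → β)
    (hs : ∀ a b, φ (a ⊔ b) = φ a ⊔ φ b) (hi : ∀ a b, φ (a ⊓ b) = φ a ⊓ φ b) :
    LSM fun a => f (φ a) := fun a b => by
  simpa only [hs, hi] using hf (φ a) (φ b)

lemma lsm_marginal {α β : Type*} [DistribLattice α] [Fintype α] [Lattice β] (F : α → β → ℝ)
    (f0 : ∀ a y, 0 ≤ F a y)
    (h : ∀ a b y z, F a y * F b z ≤ F (a ⊔ b) (y ⊔ z) * F (a ⊓ b) (y ⊓ z)) :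
    LSM fun y => ∑ a, F a y := fun y z => by
  have := four_functions_theorem_univ (fun a => F a y) (fun a => F a z) (fun a => F a (y ⊓ z))
    (fun a => F a (y ⊔ z)) (fun a => f0 a y) (fun a => f0 a z) (fun a => f0 a _) (fun a => f0 a _)
    fun a b => by rw [mul_comm (F (a ⊓ b) _)]; exact h a b y z
  rwa [mul_comm (∑ a, F a (y ⊓ z))] at this

lemma cons_sup {n : ℕ} {α : Type*} [Lattice α] (a b : α) (y z : Fin n → α) :
    (Fin.cons a y : Fin (n + 1) → α) ⊔ Fin.cons b z = Fin.cons (a ⊔ b) (y ⊔ z) := by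
  funext i
  refine Fin.cases ?_ ?_ i <;> simp

lemma cons_inf {n : ℕ} {α : Type*} [Lattice α] (a b : α) (y z : Fin n → α) :
    (Fin.cons a y : Fin (n + 1) → α) ⊓ Fin.cons b z = Fin.cons (a ⊓ b) (y ⊓ z) := by
  funext i
  refine Fin.cases ?_ ?_ i <;> simp

/-! ### Counting -/

/-- The number of ones. -/
def cnt {N : ℕ} (T : Fin N → Bool) : ℕ := (univ.filter fun i => T i = true).card

lemma cnt_le {N : ℕ} (T : Fin N → Bool) : cnt T ≤ N :=
  (card_filter_le _ _).trans_eq (Fintype.card_fin N)

lemma cnt_sup_add_inf {N : ℕ} (T S : Fin N → Bool) :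
    cnt (T ⊔ S) + cnt (T ⊓ S) = cnt T + cnt S := by
  simp only [cnt, Pi.sup_apply, Pi.inf_apply]
  rw [← card_union_add_card_inter (univ.filter fun i => T i = true)
    (univ.filter fun i => S i = true), ← filter_or, ← filter_and]
  congr 1 <;> refine congrArg _ (filter_congr fun i _ => ?_) <;> cases T i <;> cases S i <;> simp

lemma cnt_mono {N : ℕ} {T S : Fin N → Bool} (h : T ≤ S) : cnt T ≤ cnt S :=
  card_le_card fun i hi => by
    simp only [mem_filter, mem_univ, true_and] at hi ⊢
    have := h i
    rw [hi] at this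
    exact top_le_iff.1 this

lemma cnt_cons {N : ℕ} (b : Bool) (T : Fin N → Bool) :
    cnt (Fin.cons b T : Fin (N + 1) → Bool) = cnt T + if b then 1 else 0 := by
  simp only [cnt, card_filter, Fin.sum_univ_succ, Fin.cons_zero, Fin.cons_succ]
  rw [add_comm]

/-! ### Log-concave sequences -/

/-- Log-concave. -/
def LC (L : ℕ → ℝ) : Prop := ∀ k, L k * L (k + 2) ≤ L (k + 1) * L (k + 1)

lemma LC.ratio {L : ℕ → ℝ} (h : LC L) (p : ∀ k, 0 < L k) (m : ℕ) :
    ∀ d, L m * L (m + d + 1) ≤ L (m + 1) * L (m + d)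
  | 0 => by simp [mul_comm]
  | d + 1 => by
    have h1 := LC.ratio h p m d
    have h2 := h (m + d)
    rw [show m + (d + 1) + 1 = m + d + 2 by omega, show m + (d + 1) = m + d + 1 by omega]
    refine le_of_mul_le_mul_right ?_ (p (m + d))
    calc L m * L (m + d + 2) * L (m + d) = L m * (L (m + d) * L (m + d + 2)) := by ring
      _ ≤ L m * (L (m + d + 1) * L (m + d + 1)) := mul_le_mul_of_nonneg_left h2 (p m).le
      _ = L m * L (m + d + 1) * L (m + d + 1) := by ring
      _ ≤ L (m + 1) * L (m + d) * L (m + d + 1) := mul_le_mul_of_nonneg_right h1 (p _).le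
      _ = L (m + 1) * L (m + d + 1) * L (m + d) := by ring

lemma LC.spread {L : ℕ → ℝ} (h : LC L) (p : ∀ k, 0 < L k) (i d : ℕ) :
    ∀ e, L i * L (i + d + e) ≤ L (i + d) * L (i + e)
  | 0 => by simp [mul_comm]
  | e + 1 => by
    have h1 := LC.spread h p i d e
    have h2 := h.ratio p (i + e) d
    rw [show i + e + d + 1 = i + d + (e + 1) by omega, show i + e + d = i + d + e by omega] at h2
    rw [show i + (e + 1) = i + e + 1 by omega]
    refine le_of_mul_le_mul_right ?_ (p (i + e))
    calc L i * L (i + d + (e + 1)) * L (i + e) = L i * (L (i + e) * L (i + d + (e + 1))) := by ring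
      _ ≤ L i * (L (i + e + 1) * L (i + d + e)) := mul_le_mul_of_nonneg_left h2 (p i).le
      _ = L i * L (i + d + e) * L (i + e + 1) := by ring
      _ ≤ L (i + d) * L (i + e) * L (i + e + 1) := mul_le_mul_of_nonneg_right h1 (p _).le
      _ = L (i + d) * L (i + e + 1) * L (i + e) := by ring

/-- The product bound of a sequence. -/
def PN (L : ℕ → ℝ) (N : ℕ) : ℝ := L 0 * ∏ k ∈ range N, (1 + L (k + 1) / L k)

lemma PN_succ (L : ℕ → ℝ) (N : ℕ) : PN L (N + 1) = PN L N * (1 + L (N + 1) / L N) := by
  rw [PN, PN, prod_range_succ, mul_assoc]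

lemma PN_pos {L : ℕ → ℝ} (p : ∀ k, 0 < L k) (N : ℕ) : 0 < PN L N :=
  mul_pos (p 0) (prod_pos fun k _ => by have := div_pos (p (k + 1)) (p k); linarith)

/-- The step: a new ratio `c` inserted. -/
lemma PN_step {L : ℕ → ℝ} (h : LC L) (p : ∀ k, 0 < L k) {c : ℝ} (hc : 0 < c) :
    ∀ N, (1 + c) * PN (fun k => min (L k) (L (k + 1) / c)) N ≤ PN L (N + 1) := by
  set L' := fun k => min (L k) (L (k + 1) / c) with hL'
  have low : ∀ N, c ≤ L (N + 1) / L N → ∀ k ≤ N, L' k = L k := fun N hN k hk => by
    obtain ⟨d, rfl⟩ := Nat.exists_eq_add_of_le hk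
    have h1 := h.ratio p k d
    rw [le_div_iff₀ (p _)] at hN
    refine min_eq_left ((le_div_iff₀ hc).2 (le_of_mul_le_mul_right ?_ (p (k + d))))
    calc L k * c * L (k + d) = L k * (c * L (k + d)) := by ring
      _ ≤ L k * L (k + d + 1) := mul_le_mul_of_nonneg_left hN (p k).le
      _ ≤ L (k + 1) * L (k + d) := h1
  have high : ∀ N, L (N + 1) / L N < c → L' N = L (N + 1) / c := fun N hN => by
    rw [div_lt_iff₀ (p _)] at hN
    exact min_eq_right ((div_le_iff₀ hc).2 (by linarith))
  have easy : ∀ N, c ≤ L (N + 1) / L N → (1 + c) * PN L' N ≤ PN L (N + 1) := fun N hN => by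
    have e : PN L' N = PN L N := by
      rw [PN, PN, low N hN 0 (Nat.zero_le _)]
      refine congrArg (L 0 * ·) (prod_congr rfl fun k hk => ?_)
      rw [low N hN k (le_of_lt (mem_range.1 hk)), low N hN (k + 1) (mem_range.1 hk)]
    rw [e, PN_succ, mul_comm]
    exact mul_le_mul_of_nonneg_left (by linarith) (PN_pos p N).le
  intro N
  induction N with
  | zero =>
    rcases le_or_gt c (L 1 / L 0) with hc0 | hc0
    · exact easy 0 hc0
    · have e0 := high 0 hc0
      simp only [PN, range_zero, prod_empty, mul_one, prod_range_one, zero_add] at *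
      rw [e0, mul_add, mul_one, mul_div_cancel₀ _ (p 0).ne', add_mul, one_mul,
        mul_div_cancel₀ _ hc.ne']
      rw [div_lt_iff₀ (p 0)] at hc0
      have : L 1 / c ≤ L 0 := (div_le_iff₀ hc).2 (by linarith)
      linarith
  | succ N ih =>
    rcases le_or_gt c (L (N + 1 + 1) / L (N + 1)) with h1 | h1
    · exact easy _ h1
    rw [PN_succ, PN_succ L (N + 1), high (N + 1) h1]
    rcases le_or_gt c (L (N + 1) / L N) with h0 | h0
    · have e : PN L' N = PN L N := by
        rw [PN, PN, low N h0 0 (Nat.zero_le _)]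
        refine congrArg (L 0 * ·) (prod_congr rfl fun k hk => ?_)
        rw [low N h0 k (le_of_lt (mem_range.1 hk)), low N h0 (k + 1) (mem_range.1 hk)]
      rw [e, low N h0 N le_rfl, PN_succ]
      set r := L (N + 1) / L N
      set r' := L (N + 1 + 1) / L (N + 1)
      have hP := PN_pos p N
      have e2 : L (N + 1 + 1) / c / L N = r * r' / c := by
        simp only [r, r']
        field_simp [(p N).ne', (p (N + 1)).ne', hc.ne']
      rw [e2]
      have key : (1 + c) * (1 + r * r' / c) ≤ (1 + r) * (1 + r') := by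
        rw [← sub_nonneg]
        have : (1 + r) * (1 + r') - (1 + c) * (1 + r * r' / c) = (c - r') * (r - c) / c := by
          field_simp
          ring
        rw [this]
        exact div_nonneg (mul_nonneg (by linarith) (by linarith)) hc.le
      calc (1 + c) * (PN L N * (1 + r * r' / c)) = PN L N * ((1 + c) * (1 + r * r' / c)) := by ring
        _ ≤ PN L N * ((1 + r) * (1 + r')) := mul_le_mul_of_nonneg_left key hP.le
        _ = PN L N * (1 + r) * (1 + r') := by ring
    · rw [high N h0, div_div_div_cancel_right₀ hc.ne', ← mul_assoc]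
      exact mul_le_mul_of_nonneg_right ih
        (by have := div_pos (p (N + 1 + 1)) (p (N + 1)); linarith)

/-! ### One fibre -/

theorem fibre_bound : ∀ (N : ℕ) (F : (Fin N → Bool) → ℝ) (L : ℕ → ℝ), (∀ T, 0 < F T) → LSM F →
    (∀ k, 0 < L k) → LC L → (∀ T, F T ≤ L (cnt T)) → ∑ T, F T ≤ PN L N := by
  intro N
  induction N with
  | zero =>
    intro F L _ _ _ _ hb
    rw [Fintype.sum_unique]
    exact (hb _).trans_eq (by simp [PN, cnt])
  | succ N ih =>
    intro F L hF hs hp hl hb
    obtain ⟨T₀, -, hT₀⟩ := exists_max_image (univ : Finset (Fin N → Bool))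
      (fun T => F (Fin.cons true T) / L (cnt T)) univ_nonempty
    set c := F (Fin.cons true T₀) / L (cnt T₀)
    have hc : 0 < c := div_pos (hF _) (hp _)
    have h1 : ∀ T, F (Fin.cons true T) ≤ c * L (cnt T) := fun T =>
      (div_le_iff₀ (hp _)).1 (hT₀ T (mem_univ T))
    have h2 : ∀ S, F (Fin.cons false S) ≤ L (cnt S + 1) / c := fun S => by
      have a := hs (Fin.cons true T₀) (Fin.cons false S)
      rw [cons_sup, cons_inf] at a
      have b1 := hb (Fin.cons (true ⊔ false) (T₀ ⊔ S))
      have b2 := hb (Fin.cons (true ⊓ false) (T₀ ⊓ S))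
      rw [cnt_cons] at b1 b2
      simp only [show (true ⊔ false : Bool) = true from rfl, show (true ⊓ false : Bool) = false
        from rfl, if_true, Bool.false_eq_true, if_false, add_zero] at a b1 b2
      have hsum := cnt_sup_add_inf T₀ S
      have hle : cnt (T₀ ⊓ S) ≤ cnt T₀ := cnt_mono inf_le_left
      obtain ⟨d, hd⟩ := Nat.exists_eq_add_of_le hle
      have sp := hl.spread hp (cnt (T₀ ⊓ S)) d (cnt S + 1 - cnt (T₀ ⊓ S))
      have hle' : cnt (T₀ ⊓ S) ≤ cnt S := cnt_mono inf_le_right
      rw [← hd, show cnt (T₀ ⊓ S) + (cnt S + 1 - cnt (T₀ ⊓ S)) = cnt S + 1 by omega,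
        show cnt T₀ + (cnt S + 1 - cnt (T₀ ⊓ S)) = cnt (T₀ ⊔ S) + 1 by omega] at sp
      have : F (Fin.cons true T₀) * F (Fin.cons false S) ≤ L (cnt T₀) * L (cnt S + 1) := by
        refine a.trans ((mul_le_mul b1 b2 (hF _).le (hp _).le).trans ?_)
        rw [mul_comm]
        exact sp
      rw [le_div_iff₀ hc]
      calc F (Fin.cons false S) * c
          = F (Fin.cons true T₀) * F (Fin.cons false S) / L (cnt T₀) := by ring
        _ ≤ _ := (div_le_iff₀ (hp _)).2 (by linarith)
    clear_value c
    set G := fun T : Fin N → Bool => ∑ b : Bool, F (Fin.cons b T)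
    have hG : LSM G := lsm_marginal (fun b T => F (Fin.cons b T)) (fun b T => (hF _).le)
      fun a b y z => by
        have := hs (Fin.cons a y) (Fin.cons b z)
        rwa [cons_sup, cons_inf] at this
    set L' := fun k => (1 + c) * min (L k) (L (k + 1) / c)
    have p' : ∀ k, 0 < L' k := fun k => mul_pos (by linarith) (lt_min (hp k) (div_pos (hp _) hc))
    have l' : LC L' := fun k => by
      have a1 : min (L k) (L (k + 1) / c) * min (L (k + 2)) (L (k + 3) / c) ≤
          L k * L (k + 2) := mul_le_mul (min_le_left _ _) (min_le_left _ _)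
            (lt_min (hp _) (div_pos (hp _) hc)).le (hp k).le
      have a2 : min (L k) (L (k + 1) / c) * min (L (k + 2)) (L (k + 3) / c) ≤
          L (k + 1) / c * (L (k + 3) / c) := mul_le_mul (min_le_right _ _) (min_le_right _ _)
            (lt_min (hp _) (div_pos (hp _) hc)).le (div_pos (hp _) hc).le
      have b1 := hl k
      have b2 := hl (k + 1)
      have : min (L k) (L (k + 1) / c) * min (L (k + 2)) (L (k + 3) / c) ≤
          min (L (k + 1)) (L (k + 2) / c) * min (L (k + 1)) (L (k + 2) / c) := by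
        rcases le_total (L (k + 1)) (L (k + 2) / c) with e | e
        · rw [min_eq_left e]; exact a1.trans b1
        · rw [min_eq_right e]
          refine a2.trans ?_
          rw [div_mul_div_comm, div_mul_div_comm]
          exact div_le_div_of_nonneg_right b2 (mul_pos hc hc).le
      show (1 + c) * _ * ((1 + c) * _) ≤ (1 + c) * _ * ((1 + c) * _)
      calc (1 + c) * min (L k) (L (k + 1) / c) * ((1 + c) * min (L (k + 2)) (L (k + 2 + 1) / c))
          = (1 + c) * (1 + c) *
            (min (L k) (L (k + 1) / c) * min (L (k + 2)) (L (k + 3) / c)) := by ring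
        _ ≤ (1 + c) * (1 + c) * (min (L (k + 1)) (L (k + 2) / c) *
            min (L (k + 1)) (L (k + 2) / c)) := mul_le_mul_of_nonneg_left this (by positivity)
        _ = _ := by ring
    have bG : ∀ T, G T ≤ L' (cnt T) := fun T => by
      simp only [G, L', Fintype.sum_bool]
      rw [mul_min_of_nonneg _ _ (show (0 : ℝ) ≤ 1 + c by linarith)]
      refine le_min ?_ ?_
      · have := hb (Fin.cons false T)
        rw [cnt_cons] at this
        simp at this
        have := h1 T
        linarith
      · have := hb (Fin.cons true T)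
        rw [cnt_cons] at this
        simp at this
        have := h2 T
        rw [add_mul, one_mul, mul_div_cancel₀ _ hc.ne']
        linarith
    have hsum : ∑ T, F T = ∑ T, G T := by
      rw [← (Fin.consEquiv fun _ : Fin (N + 1) => Bool).sum_comp, Fintype.sum_prod_type, sum_comm]
      rfl
    rw [hsum]
    refine (ih G L' (fun T => sum_pos (fun b _ => hF _) univ_nonempty) hG p' l' bG).trans ?_
    refine le_of_eq_of_le ?_ (PN_step hl hp hc N)
    simp only [PN, L']
    rw [mul_assoc]
    refine congrArg (fun x => (1 + c) * (_ * x)) (prod_congr rfl fun k _ => ?_)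
    rw [mul_div_mul_left _ _ (show (1 + c : ℝ) ≠ 0 by linarith)]

/-! ### All fibres -/

/-- The order statistics. -/
def lev {V : Type*} {N : ℕ} (x : V → Fin N → Bool) (m : ℕ) : V → Bool :=
  fun v => decide (m < cnt (x v))

theorem fibres_bound {N : ℕ} : ∀ (n : ℕ) (g : (Fin n → Bool) → ℝ)
    (F : (Fin n → Fin N → Bool) → ℝ), (∀ a, 0 < g a) → LSM g → (∀ x, 0 < F x) → LSM F →
    (∀ x, F x ≤ ∏ i : Fin N, g (lev x i)) → ∑ x, F x ≤ (∑ a, g a) ^ N := by
  intro n
  induction n with
  | zero =>
    intro g F _ _ _ _ hb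
    rw [Fintype.sum_unique, Fintype.sum_unique]
    refine (hb _).trans_eq ?_
    rw [prod_congr rfl (fun i _ => congrArg g (Subsingleton.elim _ default)), prod_const, card_univ,
      Fintype.card_fin]
    exact congrArg (fun a => g a ^ N) (Subsingleton.elim _ _)
  | succ n ih =>
    intro g F hg gs hF Fs hb
    set g' := fun y : Fin n → Bool => ∑ b : Bool, g (Fin.cons b y)
    set F' := fun y : Fin n → Fin N → Bool => ∑ T : Fin N → Bool, F (Fin.cons T y)
    have eg : ∑ a, g a = ∑ y, g' y := by
      rw [← (Fin.consEquiv fun _ : Fin (n + 1) => Bool).sum_comp, Fintype.sum_prod_type, sum_comm]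
      rfl
    have eF : ∑ x, F x = ∑ y, F' y := by
      rw [← (Fin.consEquiv fun _ : Fin (n + 1) => Fin N → Bool).sum_comp, Fintype.sum_prod_type,
        sum_comm]
      rfl
    have gm : ∀ a b y z, g (Fin.cons a y) * g (Fin.cons b z) ≤
        g (Fin.cons (a ⊔ b) (y ⊔ z)) * g (Fin.cons (a ⊓ b) (y ⊓ z)) := fun a b y z => by
      have := gs (Fin.cons a y) (Fin.cons b z)
      rwa [cons_sup, cons_inf] at this
    have Fm : ∀ a b y z, F (Fin.cons a y) * F (Fin.cons b z) ≤
        F (Fin.cons (a ⊔ b) (y ⊔ z)) * F (Fin.cons (a ⊓ b) (y ⊓ z)) := fun a b y z => by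
      have := Fs (Fin.cons a y) (Fin.cons b z)
      rwa [cons_sup, cons_inf] at this
    rw [eF, eg]
    refine ih g' F' (fun y => sum_pos (fun b _ => hg _) univ_nonempty)
      (lsm_marginal (fun b y => g (Fin.cons b y)) (fun b y => (hg _).le) gm)
      (fun y => sum_pos (fun b _ => hF _) univ_nonempty)
      (lsm_marginal (fun T y => F (Fin.cons T y)) (fun T y => (hF _).le) Fm) fun y => ?_
    let z : ℕ → Fin n → Bool := lev y
    set r := fun m => g (Fin.cons true (z m)) / g (Fin.cons false (z m))
    set A := ∏ i : Fin N, g (Fin.cons false (z i))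
    set L := fun k => A * ∏ m ∈ range k, r m
    have rp : ∀ m, 0 < r m := fun m => div_pos (hg _) (hg _)
    have Lp : ∀ k, 0 < L k := fun k =>
      mul_pos (prod_pos fun i _ => hg _) (prod_pos fun m _ => rp m)
    have ra : ∀ m, r (m + 1) ≤ r m := fun m => by
      have hz : z (m + 1) ≤ z m := fun v => by
        simp only [z, lev]
        by_cases h : m + 1 < cnt (y v)
        · simp [show m < cnt (y v) by omega]
        · simp [h]
      have h := gm true false (z (m + 1)) (z m)
      rw [sup_eq_right.2 hz, inf_eq_left.2 hz] at h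
      simp only [r]
      rw [div_le_div_iff₀ (hg _) (hg _)]
      exact h
    have Ll : LC L := fun k => by
      simp only [L, prod_range_succ]
      have h1 := ra k
      have h2 := (mul_pos (Lp k) (Lp k)).le
      simp only [L] at h2
      calc (A * ∏ m ∈ range k, r m) * (A * ((∏ m ∈ range k, r m) * r k * r (k + 1)))
          = (A * ∏ m ∈ range k, r m) * (A * ∏ m ∈ range k, r m) * r k * r (k + 1) := by ring
        _ ≤ (A * ∏ m ∈ range k, r m) * (A * ∏ m ∈ range k, r m) * r k * r k :=
          mul_le_mul_of_nonneg_left h1 (mul_nonneg h2 (rp k).le)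
        _ = _ := by ring
    refine (fibre_bound N (fun T => F (Fin.cons T y)) L (fun T => hF _) (fun a b => ?_) Lp Ll
      fun T => ?_).trans_eq ?_
    · have := Fm a b y y
      rwa [sup_idem, inf_idem] at this
    · refine (hb _).trans_eq ?_
      have e : ∀ i : Fin N, g (lev (Fin.cons T y) i) =
          g (Fin.cons false (z i)) * if i.val < cnt T then r i else 1 := fun i => by
        have hl : lev (Fin.cons T y : Fin (n + 1) → Fin N → Bool) i =
            Fin.cons (decide (i.val < cnt T)) (z i) := by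
          funext v
          refine Fin.cases ?_ ?_ v <;> simp [lev, z]
        rw [hl]
        split_ifs with h
        · simp only [h, decide_true, r]
          rw [mul_div_cancel₀ _ (hg _).ne']
        · simp [h]
      rw [prod_congr rfl (fun i _ => e i), prod_mul_distrib]
      refine congrArg (A * ·) ?_
      rw [Fin.prod_univ_eq_prod_range (fun i => if i < cnt T then r i else 1) N, ← prod_filter]
      refine prod_congr ?_ fun _ _ => rfl
      ext i
      have := cnt_le T
      simp only [mem_filter, mem_range]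
      omega
    · simp only [PN, L, range_zero, prod_empty, mul_one, A]
      rw [← Fin.prod_univ_eq_prod_range (fun k => 1 + (A * ∏ m ∈ range (k + 1), r m) /
        (A * ∏ m ∈ range k, r m)) N, ← prod_mul_distrib]
      refine prod_congr rfl fun i _ => ?_
      have := (Lp i).ne'
      rw [prod_range_succ, ← mul_assoc A, mul_div_cancel_left₀ _ this]
      simp only [g', Fintype.sum_bool, r]
      rw [mul_add, mul_one, mul_div_cancel₀ _ (hg _).ne', add_comm]

/-- The cover inequality on an arbitrary finite set of bits. -/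
theorem cover_bound {V : Type*} [Fintype V] [DecidableEq V] {N : ℕ} (g : (V → Bool) → ℝ)
    (F : (V → Fin N → Bool) → ℝ) (hg : ∀ a, 0 < g a) (gs : LSM g) (hF : ∀ x, 0 < F x) (Fs : LSM F)
    (hb : ∀ x, F x ≤ ∏ i : Fin N, g (lev x i)) : ∑ x, F x ≤ (∑ a, g a) ^ N := by
  let e := Fintype.equivFin V
  have := fibres_bound (N := N) _ (fun a => g (a ∘ e)) (fun x => F (x ∘ e)) (fun a => hg _)
    (gs.comp _ (fun _ _ => rfl) fun _ _ => rfl) (fun x => hF _)
    (Fs.comp _ (fun _ _ => rfl) fun _ _ => rfl) fun x => hb (x ∘ e)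
  rwa [Fintype.sum_equiv (e.arrowCongr (Equiv.refl (Fin N → Bool))).symm (fun x => F (x ∘ e)) F
      fun x => rfl,
    Fintype.sum_equiv (e.arrowCongr (Equiv.refl Bool)).symm (fun a => g (a ∘ e)) g
      fun a => rfl] at this

end Vale.Agent.P050
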