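import Vale.Agent.P050.Targets
import Mathlib.Combinatorics.SimpleGraph.DegreeSum
import Mathlib.Combinatorics.SimpleGraph.Maps
import Mathlib.Combinatorics.SimpleGraph.Coloring.Vertex
import Mathlib.Combinatorics.SimpleGraph.Connectivity.Connected

/-!
P050: Sidorenko's inequality for simple graphs as targets, reduced to targets which are connected
and have connected complement.
-/

noncomputable section

namespace Vale.Agent.P050

open Finset
open scoped Classical

/-- The homomorphism density. -/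
def homDensity {V W : Type} [Fintype V] [Fintype W] (H : SimpleGraph V) (G : SimpleGraph W) : ℝ :=
  (Nat.card (H →g G) : ℝ) / (Fintype.card W : ℝ) ^ Fintype.card V

/-- Sidorenko's inequality for the pair. -/
def Ineq {V W : Type} [Fintype V] [Fintype W] (H : SimpleGraph V) (G : SimpleGraph W) : Prop :=
  (2 * (Nat.card G.edgeSet : ℝ) / (Fintype.card W : ℝ) ^ 2) ^ Nat.card H.edgeSet ≤ homDensity H G

/-- The adjacency indicator. -/
def ind {W : Type} (G : SimpleGraph W) (x y : W) : ℝ := if G.Adj x y then 1 else 0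

lemma ind_nonneg {W : Type} (G : SimpleGraph W) (x y : W) : 0 ≤ ind G x y := by
  unfold ind
  split_ifs <;> norm_num

lemma edges_card {V : Type} [Fintype V] {H : SimpleGraph V} {E : Finset (V × V)} {side : V → Bool}
    (hE : ∀ e ∈ E, side e.1 = false ∧ side e.2 = true)
    (hH : ∀ u v, H.Adj u v ↔ (u, v) ∈ E ∨ (v, u) ∈ E) : Nat.card H.edgeSet = E.card := by
  rw [Nat.card_eq_fintype_card, ← SimpleGraph.edgeFinset_card]
  refine (card_bij (fun e _ => s(e.1, e.2)) (fun e he => ?_) (fun e he f hf h => ?_)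
    fun z hz => ?_).symm
  · rw [SimpleGraph.mem_edgeFinset, SimpleGraph.mem_edgeSet, hH]
    exact Or.inl he
  · rcases Sym2.eq_iff.1 h with ⟨h1, h2⟩ | ⟨h1, -⟩
    · exact Prod.ext h1 h2
    · have a := (hE e he).1
      rw [h1, (hE f hf).2] at a
      cases a
  · induction z using Sym2.ind with
    | h u v =>
      rw [SimpleGraph.mem_edgeFinset, SimpleGraph.mem_edgeSet, hH] at hz
      rcases hz with h | h
      · exact ⟨(u, v), h, rfl⟩
      · exact ⟨(v, u), h, Sym2.eq_swap⟩

/-- The inequality in sums over maps into a finite set. -/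
lemma ineq_iff {V W W' : Type} [Fintype V] [Fintype W'] [Nonempty W'] {H : SimpleGraph V}
    {G : SimpleGraph W} {G' : SimpleGraph W'} (ι : W' ↪ W)
    (hι : ∀ x y, G'.Adj x y ↔ G.Adj (ι x) (ι y)) {E : Finset (V × V)} {side : V → Bool}
    (hE : ∀ e ∈ E, side e.1 = false ∧ side e.2 = true)
    (hH : ∀ u v, H.Adj u v ↔ (u, v) ∈ E ∨ (v, u) ∈ E) :
    Ineq H G' ↔ (pairSum (ind G) (univ.map ι) / ((univ.map ι).card : ℝ) ^ 2) ^ E.card *
      ((univ.map ι).card : ℝ) ^ Fintype.card V ≤ homSum (ind G) (univ.map ι) E := by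
  have hpair : pairSum (ind G) (univ.map ι) = 2 * (Nat.card G'.edgeSet : ℝ) := by
    rw [Nat.card_eq_fintype_card, ← SimpleGraph.edgeFinset_card,
      show (2 : ℝ) * (G'.edgeFinset.card : ℝ) = ((∑ x, G'.degree x : ℕ) : ℝ) by
        rw [SimpleGraph.sum_degrees_eq_twice_card_edges]; push_cast; ring]
    simp only [pairSum, sum_map, ind, sum_boole, Nat.cast_sum]
    refine sum_congr rfl fun x _ => ?_
    rw [← SimpleGraph.card_neighborFinset_eq_degree, SimpleGraph.neighborFinset_eq_filter]
    simp [hι, filter_map, card_map]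
  have hhom : homSum (ind G) (univ.map ι) E = (Nat.card (H →g G') : ℝ) := by
    have e1 : homSum (ind G) (univ.map ι) E =
        ∑ f : V → W', ∏ e ∈ E, ind G (ι (f e.1)) (ι (f e.2)) := by
      refine (sum_bij (fun f _ => fun v => ι (f v)) (fun f _ => ?_) (fun f _ f' _ h => ?_)
        (fun g hg => ?_) fun f _ => rfl).symm
      · simp [Fintype.mem_piFinset]
      · exact funext fun v => ι.injective (congrFun h v)
      · have hg' := fun v => mem_map.1 (Fintype.mem_piFinset.1 hg v)
        choose f _ hf using hg'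
        exact ⟨f, mem_univ _, funext hf⟩
    rw [e1]
    rw [show (∑ f : V → W', ∏ e ∈ E, ind G (ι (f e.1)) (ι (f e.2))) =
        ((univ.filter fun f : V → W' => ∀ e ∈ E, G.Adj (ι (f e.1)) (ι (f e.2))).card : ℝ) by
      rw [card_eq_sum_ones, Nat.cast_sum, sum_filter]
      refine sum_congr rfl fun f _ => ?_
      simp only [ind, prod_boole, Nat.cast_one]
      split_ifs <;> rfl]
    rw [← Fintype.card_subtype, ← Nat.card_eq_fintype_card]
    refine congrArg _ (Nat.card_congr
      { toFun := fun f => ⟨f.1, fun {u v} h => ?_⟩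
        invFun := fun φ => ⟨φ, fun e he => ?_⟩
        left_inv := fun f => rfl
        right_inv := fun φ => RelHom.ext fun v => rfl })
    · rcases (hH u v).1 h with h | h
      · exact (hι _ _).2 (f.2 _ h)
      · exact ((hι _ _).2 (f.2 _ h)).symm
    · exact (hι _ _).1 (φ.map_rel ((hH _ _).2 (Or.inl he)))
  rw [Ineq, homDensity, hpair, hhom, edges_card hE hH, card_map, card_univ,
    le_div_iff₀ (pow_pos (Nat.cast_pos.2 Fintype.card_pos) _)]

/-- A disconnected induced subgraph splits into two parts without edges between them. -/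
lemma parts_of_not_connected {W : Type} (G : SimpleGraph W) {X : Finset W} (hX : X.Nonempty)
    (h : ¬ (G.induce (X : Set W)).Connected) :
    ∃ U₀ U₁ : Finset W, U₀.Nonempty ∧ U₁.Nonempty ∧ Disjoint U₀ U₁ ∧ U₀ ∪ U₁ = X ∧
      ∀ x ∈ U₀, ∀ y ∈ U₁, ¬ G.Adj x y := by
  set G' := G.induce (X : Set W)
  obtain ⟨x, y, hxy⟩ : ∃ x y, ¬ G'.Reachable x y := by
    by_contra hc
    push Not at hc
    exact h (SimpleGraph.connected_iff _ |>.2 ⟨fun a b => hc a b, ⟨⟨_, hX.choose_spec⟩⟩⟩)
  set p := fun z => ∃ hz : z ∈ X, G'.Reachable x ⟨z, hz⟩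
  refine ⟨X.filter p, X.filter fun z => ¬ p z, ⟨x.1, ?_⟩, ⟨y.1, ?_⟩,
    disjoint_filter_filter_not X X p, filter_union_filter_not_eq p X, fun u hu v hv ha => ?_⟩
  · exact mem_filter.2 ⟨x.2, x.2, SimpleGraph.Reachable.refl _⟩
  · exact mem_filter.2 ⟨y.2, fun ⟨_, hr⟩ => hxy hr⟩
  · obtain ⟨-, hu1, hu2⟩ := mem_filter.1 hu
    obtain ⟨hv1, hv2⟩ := mem_filter.1 hv
    exact hv2 ⟨hv1, hu2.trans (SimpleGraph.Adj.reachable
      (show G'.Adj ⟨u, hu1⟩ ⟨v, hv1⟩ from ha))⟩

/-- The unsplit parts are connected with connected complement. -/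
lemma connected_of_not_splits {W : Type} {G : SimpleGraph W} {X : Finset W} (hX : X.Nonempty)
    (h : ¬ Splits (ind G) X) :
    (G.induce (X : Set W)).Connected ∧ (G.induce (X : Set W))ᶜ.Connected := by
  constructor
  · by_contra hc
    obtain ⟨U₀, U₁, n₀, n₁, hd, hu, hn⟩ := parts_of_not_connected G hX hc
    exact h ⟨U₀, U₁, 0, n₀, n₁, hd, hu, le_rfl, fun x hx y hy => if_neg (hn x hx y hy)⟩
  · by_contra hc
    have e : (G.induce (X : Set W))ᶜ = Gᶜ.induce (X : Set W) := by
      ext a b
      simp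
    rw [e] at hc
    obtain ⟨U₀, U₁, n₀, n₁, hd, hu, hn⟩ := parts_of_not_connected Gᶜ hX hc
    refine h ⟨U₀, U₁, 1, n₀, n₁, hd, hu, zero_le_one, fun x hx y hy => if_pos ?_⟩
    by_contra ha
    exact hn x hx y hy ⟨fun e => disjoint_left.1 hd hx (e ▸ hy), ha⟩

/-- The inequality for `H` and `G` follows from that for the subgraphs of `H` with edges and the
induced subgraphs of `G` which are connected with connected complement. -/
theorem ineq_of_prime {V W : Type} [Fintype V] [Fintype W] [Nonempty W] {H : SimpleGraph V}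
    {G : SimpleGraph W} (hH : H.Colorable 2)
    (h : ∀ X : Finset W, 2 ≤ X.card → (G.induce (X : Set W)).Connected →
      (G.induce (X : Set W))ᶜ.Connected → ∀ H' ≤ H, H'.edgeSet.Nonempty →
        Ineq H' (G.induce (X : Set W))) :
    Ineq H G := by
  obtain ⟨col⟩ := hH
  set side : V → Bool := fun v => decide (col v = 1)
  set E₀ := (univ : Finset (V × V)).filter fun e => H.Adj e.1 e.2 ∧ side e.1 = false ∧ side e.2 = true
  have hE₀ : ∀ e ∈ E₀, side e.1 = false ∧ side e.2 = true := fun e he => (mem_filter.1 he).2.2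
  have hH₀ : ∀ u v, H.Adj u v ↔ (u, v) ∈ E₀ ∨ (v, u) ∈ E₀ := fun u v => by
    refine ⟨fun hadj => ?_, fun h => ?_⟩
    · have hne := col.valid hadj
      simp only [E₀, side, mem_filter, mem_univ, true_and, decide_eq_false_iff_not,
        decide_eq_true_iff]
      by_cases hu : col u = 1
      · exact Or.inr ⟨hadj.symm, fun hv => hne (hu.trans hv.symm), hu⟩
      · exact Or.inl ⟨hadj, hu, by omega⟩
    · rcases h with h | h
      · exact (mem_filter.1 h).2.1
      · exact (mem_filter.1 h).2.1.symm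
  have good : Good (ind G) E₀ univ := by
    refine good_of_parts hE₀ (ind_nonneg G) (fun x y => by simp [ind, G.adj_comm])
      (fun x => if_neg (G.loopless.irrefl x)) univ (fun X _ hX2 hs E hE => ?_) univ_nonempty
    have hXne : X.Nonempty := card_pos.1 (by omega)
    obtain ⟨c1, c2⟩ := connected_of_not_splits hXne hs
    rcases E.eq_empty_or_nonempty with rfl | ⟨e, he⟩
    · simp [homSum]
    let H' : SimpleGraph V := SimpleGraph.fromRel fun u v => (u, v) ∈ E
    have hE' : ∀ e ∈ E, side e.1 = false ∧ side e.2 = true := fun e he => hE₀ e (hE he)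
    have hH' : ∀ u v, H'.Adj u v ↔ (u, v) ∈ E ∨ (v, u) ∈ E := fun u v => by
      simp only [H', SimpleGraph.fromRel_adj]
      refine ⟨fun h => h.2, fun h => ⟨fun huv => ?_, h⟩⟩
      subst huv
      have := hE' (u, u) (h.elim id id)
      simp at this
    have hle : H' ≤ H := fun u v huv => (hH₀ u v).2 (((hH' u v).1 huv).imp (fun h => hE h) fun h => hE h)
    have hne : H'.edgeSet.Nonempty := ⟨s(e.1, e.2), (hH' _ _).2 (Or.inl he)⟩
    have hi := h X hX2 c1 c2 H' hle hne
    have : Nonempty (X : Set W) := ⟨⟨_, hXne.choose_spec⟩⟩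
    have := (ineq_iff (Function.Embedding.subtype _) (fun _ _ => Iff.rfl) hE' hH').1 hi
    rwa [show (univ : Finset (X : Set W)).map (Function.Embedding.subtype _) = X by
      ext x; simp] at this
  refine (ineq_iff (Function.Embedding.refl W) (fun _ _ => Iff.rfl) hE₀ hH₀).2 ?_
  rw [map_refl]
  exact good E₀ Subset.rfl

end Vale.Agent.P050
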