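import Vale.Agent.P050.TwoBlock

/-!
P050: Sidorenko's inequality for log-supermodular weights on sublattices of a Boolean cube.

The cover inequality for bits applies to vectors of bits, as sorting every coordinate increases a
product of values of a log-supermodular function. The average over lifts is bounded below by the
terms with two most likely types. Weights with zeros follow by smoothing.
-/

noncomputable section

namespace Vale.Agent.P050.Lattice

open Finset

variable {J : Type*}

/-! ### Sorting -/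

/-- The `m`-th order statistic in every coordinate. -/
def levs {N : ℕ} (z : Fin N → J → Bool) (m : ℕ) : J → Bool :=
  fun j => decide (m < cnt fun i => z i j)

lemma sort_bound : ∀ (N : ℕ) (φ : (J → Bool) → ℝ), (∀ a, 0 ≤ φ a) → LSM φ →
    ∀ z : Fin N → J → Bool, ∏ i, φ (z i) ≤ ∏ i : Fin N, φ (levs z i) := by
  intro N
  induction N with
  | zero => intro φ _ _ z; simp
  | succ N ih =>
    intro φ h0 hs z
    set z' : Fin N → J → Bool := fun i => z i.succ
    set c : J → ℕ := fun j => cnt fun i => z' i j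
    have hcN : ∀ j, c j ≤ N := fun j => cnt_le _
    have hcnt : ∀ j, (cnt fun i => z i j) = c j + if z 0 j then 1 else 0 := fun j => by
      rw [← cnt_cons (z 0 j) fun i => z' i j]
      congr 1
      funext i
      refine Fin.cases ?_ ?_ i <;> simp [z']
    set carry : ℕ → J → Bool := fun m j => z 0 j && decide (m ≤ c j)
    have step : ∀ m, φ (carry m) * φ (levs z' m) ≤ φ (levs z m) * φ (carry (m + 1)) := fun m => by
      refine (hs (carry m) (levs z' m)).trans_eq (congrArg₂ (· * ·) (congrArg φ ?_) (congrArg φ ?_))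
      · funext j
        simp only [Pi.sup_apply, carry, levs, hcnt]
        change (z 0 j && decide (m ≤ c j) || decide (m < c j)) = _
        cases z 0 j <;> simp <;> omega
      · funext j
        simp only [Pi.inf_apply, carry, levs]
        change ((z 0 j && decide (m ≤ c j)) && decide (m < c j)) = _
        cases z 0 j <;> simp <;> omega
    have chain : ∀ m, φ (z 0) * ∏ i ∈ range m, φ (levs z' i) ≤
        (∏ i ∈ range m, φ (levs z i)) * φ (carry m) := fun m => by
      induction m with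
      | zero =>
        simp only [range_zero, prod_empty, mul_one, one_mul]
        exact le_of_eq (congrArg φ (funext fun j => by simp [carry]))
      | succ m hm =>
        rw [prod_range_succ, prod_range_succ, ← mul_assoc, mul_assoc _ (φ (levs z m))]
        refine (mul_le_mul_of_nonneg_right hm (h0 _)).trans ?_
        rw [mul_assoc]
        exact mul_le_mul_of_nonneg_left (step m) (prod_nonneg fun i _ => h0 _)
    rw [Fin.prod_univ_succ, Fin.prod_univ_eq_prod_range (fun i => φ (levs z i)), prod_range_succ]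
    refine (mul_le_mul_of_nonneg_left (ih φ h0 hs z') (h0 _)).trans ?_
    rw [Fin.prod_univ_eq_prod_range (fun i => φ (levs z' i))]
    refine (chain N).trans_eq ?_
    refine congrArg _ (congrArg φ (funext fun j => ?_))
    simp only [carry, levs, hcnt]
    have := hcN j
    cases z 0 j <;> simp <;> omega

/-! ### Types of strings -/

variable {S : Type*} [Fintype S] [DecidableEq S] {N : ℕ}

/-- The number of times each letter occurs. -/
def hist (A : Fin N → S) (a : S) : Fin (N + 1) :=
  ⟨(univ.filter fun i => A i = a).card,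
    Nat.lt_succ_of_le ((card_filter_le _ _).trans_eq (Fintype.card_fin N))⟩

/-- Weight of a string. -/
def wt (q : S → ℝ) (A : Fin N → S) : ℝ := ∏ i, q (A i)

/-- A pair of strings averaged over matchings. -/
def avgS (ψ : S → S → ℝ) (A B : Fin N → S) : ℝ :=
  ∑ π : Equiv.Perm (Fin N), ∏ i, ψ (A i) (B (π i))

/-- Weight of the strings of one type. -/
def cls (N : ℕ) (q : S → ℝ) (h : S → Fin (N + 1)) : ℝ :=
  ∑ A ∈ (univ : Finset (Fin N → S)).filter (fun A => hist A = h), wt q A

lemma avgS_congr (ψ : S → S → ℝ) {A A' B B' : Fin N → S} (ha : hist A = hist A')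
    (hb : hist B = hist B') : avgS ψ A B = avgS ψ A' B' := by
  have perm : ∀ {X X' : Fin N → S}, hist X = hist X' → ∃ π : Equiv.Perm (Fin N), X' ∘ π = X :=
    fun {X X'} h => by
      have e : ∀ a, { i // X i = a } ≃ { i // X' i = a } := fun a => Fintype.equivOfCardEq (by
        rw [Fintype.card_subtype, Fintype.card_subtype]
        exact congrArg Fin.val (congrFun h a))
      exact ⟨Equiv.ofFiberEquiv e, funext fun i => Equiv.ofFiberEquiv_map e i⟩
  obtain ⟨α, rfl⟩ := perm ha
  obtain ⟨β, rfl⟩ := perm hb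
  refine Fintype.sum_equiv ((Equiv.mulRight α⁻¹).trans (Equiv.mulLeft β)) _ _ fun π => ?_
  refine Fintype.prod_equiv α _ _ fun i => ?_
  simp [Equiv.Perm.mul_apply]

lemma sum_wt {q : S → ℝ} (h1 : ∑ a, q a = 1) : ∑ A : Fin N → S, wt q A = 1 := by
  simp only [wt]
  rw [← Fintype.prod_sum fun (_ : Fin N) a => q a, h1, prod_const_one]

lemma cls_nonneg {q : S → ℝ} (hq : ∀ a, 0 < q a) (h : S → Fin (N + 1)) : 0 ≤ cls N q h :=
  sum_nonneg fun _ _ => prod_nonneg fun _ _ => (hq _).le

lemma cls_le_one {q : S → ℝ} (hq : ∀ a, 0 < q a) (h1 : ∑ a, q a = 1) (h : S → Fin (N + 1)) :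
    cls N q h ≤ 1 :=
  (sum_le_sum_of_subset_of_nonneg (filter_subset _ _)
    fun _ _ _ => prod_nonneg fun _ _ => (hq _).le).trans_eq (sum_wt h1)

lemma exists_mode {q : S → ℝ} (h1 : ∑ a, q a = 1) :
    ∃ h, 1 / ((N : ℝ) + 1) ^ Fintype.card S ≤ cls N q h := by
  have tot : ∑ h, cls N q h = 1 := by
    simp only [cls]
    rw [sum_fiberwise]
    exact sum_wt h1
  obtain ⟨h, -, hm⟩ := exists_max_image (univ : Finset (S → Fin (N + 1))) (cls N q) univ_nonempty
  refine ⟨h, ?_⟩
  have := sum_le_card_nsmul _ _ _ hm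
  rw [tot, card_univ, Fintype.card_fun, Fintype.card_fin, nsmul_eq_mul] at this
  push_cast at this
  rw [div_le_iff₀ (by positivity)]
  linarith

lemma sum_pairs (qA qB : S → ℝ) (ψ : S → S → ℝ) :
    ∑ A : Fin N → S, ∑ B : Fin N → S, wt qA A * wt qB B * avgS ψ A B =
      Fintype.card (Equiv.Perm (Fin N)) * (∑ a, ∑ b, qA a * qB b * ψ a b) ^ N := by
  simp only [avgS, mul_sum]
  rw [sum_congr rfl (fun A _ => sum_comm), sum_comm]
  have h : ∀ π : Equiv.Perm (Fin N),
      ∑ A : Fin N → S, ∑ B : Fin N → S, wt qA A * wt qB B * ∏ i, ψ (A i) (B (π i)) =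
        (∑ a, ∑ b, qA a * qB b * ψ a b) ^ N := fun π => by
    calc _ = ∑ A : Fin N → S, ∑ B : Fin N → S, ∏ i, qA (A i) * qB (B i) * ψ (A i) (B i) := by
            refine sum_congr rfl fun A _ => ?_
            refine Fintype.sum_equiv (π.arrowCongr (Equiv.refl S)).symm _ _ fun B => ?_
            simp only [wt]
            rw [← Equiv.prod_comp π fun i => qB (B i), ← prod_mul_distrib, ← prod_mul_distrib]
            exact prod_congr rfl fun i _ => by simp
      _ = ∑ A : Fin N → S, ∏ i, ∑ b, qA (A i) * qB b * ψ (A i) b := by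
            refine sum_congr rfl fun A _ => ?_
            rw [← Fintype.prod_sum fun i b => qA (A i) * qB b * ψ (A i) b]
      _ = _ := by
            rw [← Fintype.prod_sum fun (_ : Fin N) a => ∑ b, qA a * qB b * ψ a b, prod_const,
              card_univ, Fintype.card_fin]
  rw [sum_congr rfl fun π _ => h π, sum_const, card_univ, nsmul_eq_mul]

lemma exists_types [Nonempty S] {qA qB : S → ℝ} {ψ : S → S → ℝ} (hA : ∀ a, 0 < qA a)
    (hB : ∀ a, 0 < qB a) (hp : ∀ a b, 0 < ψ a b) :
    ∃ A₀ B₀ : Fin N → S,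
      Fintype.card (Equiv.Perm (Fin N)) * (∑ a, ∑ b, qA a * qB b * ψ a b) ^ N /
        (((N : ℝ) + 1) ^ Fintype.card S) ^ 2 ≤
          cls N qA (hist A₀) * cls N qB (hist B₀) * avgS ψ A₀ B₀ := by
  obtain ⟨P, -, hm⟩ := exists_max_image (univ : Finset ((Fin N → S) × (Fin N → S)))
    (fun P => cls N qA (hist P.1) * cls N qB (hist P.2) * avgS ψ P.1 P.2) univ_nonempty
  refine ⟨P.1, P.2, ?_⟩
  set M := cls N qA (hist P.1) * cls N qB (hist P.2) * avgS ψ P.1 P.2
  have hM : 0 ≤ M := mul_nonneg (mul_nonneg (cls_nonneg hA _) (cls_nonneg hB _))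
    (sum_nonneg fun π _ => prod_nonneg fun i _ => (hp _ _).le)
  rw [div_le_iff₀ (by positivity), ← sum_pairs qA qB ψ]
  have e : ∑ A : Fin N → S, ∑ B : Fin N → S, wt qA A * wt qB B * avgS ψ A B =
      ∑ h : S → Fin (N + 1), ∑ k : S → Fin (N + 1),
        ∑ A ∈ (univ : Finset (Fin N → S)).filter (fun T => hist T = h),
          ∑ B ∈ (univ : Finset (Fin N → S)).filter (fun T => hist T = k),
            wt qA A * wt qB B * avgS ψ A B := by
    rw [← sum_fiberwise univ (fun T : Fin N → S => hist T)]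
    refine sum_congr rfl fun h _ => ?_
    rw [sum_comm (s := (univ : Finset (S → Fin (N + 1))))]
    exact sum_congr rfl fun A _ => (sum_fiberwise _ _ _).symm
  rw [e]
  refine (sum_le_sum fun h _ => sum_le_sum (g := fun _ => M) fun k _ => ?_).trans_eq ?_
  · rcases ((univ : Finset (Fin N → S)).filter fun T => hist T = h).eq_empty_or_nonempty with
      eh | ⟨A, hA'⟩
    · simp [eh, hM]
    rcases ((univ : Finset (Fin N → S)).filter fun T => hist T = k).eq_empty_or_nonempty with
      ek | ⟨B, hB'⟩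
    · simp [ek, hM]
    refine le_of_eq_of_le ?_ (hm (A, B) (mem_univ _))
    simp only [(mem_filter.1 hA').2, (mem_filter.1 hB').2]
    simp only [cls]
    rw [sum_mul_sum, sum_mul]
    refine sum_congr rfl fun A' hA'' => ?_
    rw [sum_mul]
    refine sum_congr rfl fun B' hB'' => ?_
    rw [avgS_congr ψ ((mem_filter.1 hA'').2.trans (mem_filter.1 hA').2.symm)
      ((mem_filter.1 hB'').2.trans (mem_filter.1 hB').2.symm)]
  · simp only [sum_const, card_univ, Fintype.card_fun, Fintype.card_fin, nsmul_eq_mul]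
    push_cast
    ring

/-! ### The inequality on the cube -/

variable {V : Type*} [Fintype V]

/-- The weighted count of maps. -/
def Zs [DecidableEq V] {T : Type*} [Fintype T] (E : Finset (V × V)) (qs : V → T → ℝ) (ψ : T → T → ℝ) : ℝ :=
  ∑ x : V → T, (∏ v, qs v (x v)) * ∏ e ∈ E, ψ (x e.1) (x e.2)

variable [DecidableEq V] [Fintype J] [DecidableEq J]

lemma lift_bound {E : Finset (V × V)} {qs : V → (J → Bool) → ℝ}
    {ψ : (J → Bool) → (J → Bool) → ℝ} (hq : ∀ v a, 0 < qs v a) (hp : ∀ a b, 0 < ψ a b)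
    (hqs : ∀ v, LSM (qs v)) (hps : LSM fun c : (J → Bool) × (J → Bool) => ψ c.1 c.2)
    (σ : E → Equiv.Perm (Fin N)) :
    ∑ x : V → Fin N → J → Bool, (∏ v, wt (qs v) (x v)) *
      ∏ e : E, ∏ i, ψ (x e.1.1 i) (x e.1.2 (σ e i)) ≤ Zs E qs ψ ^ N := by
  set g : (V × J → Bool) → ℝ := fun a => (∏ v, qs v fun j => a (v, j)) *
    ∏ e : E, ψ (fun j => a (e.1.1, j)) fun j => a (e.1.2, j) with hg
  set F : (V × J → Fin N → Bool) → ℝ := fun y => (∏ v, ∏ i, qs v fun j => y (v, j) i) *
    ∏ e : E, ∏ i, ψ (fun j => y (e.1.1, j) i) fun j => y (e.1.2, j) (σ e i) with hF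
  have hb : ∑ y, F y ≤ (∑ a, g a) ^ N := by
    refine cover_bound g F
      (fun a => mul_pos (prod_pos fun v _ => hq v _) (prod_pos fun e _ => hp _ _))
      (LSM.mul (LSM.prod _ (fun v _ => (hqs v).comp (fun (a : V × J → Bool) j => a (v, j))
          (fun _ _ => rfl) fun _ _ => rfl) fun v _ a => (hq v _).le)
        (LSM.prod _ (fun e _ => hps.comp (fun a : V × J → Bool =>
            ((fun j => a (e.1.1, j)), fun j => a (e.1.2, j)))
          (fun _ _ => rfl) fun _ _ => rfl) fun e _ a => (hp _ _).le)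
        (fun a => prod_nonneg fun v _ => (hq v _).le) fun a => prod_nonneg fun e _ => (hp _ _).le)
      (fun y => mul_pos (prod_pos fun v _ => prod_pos fun i _ => hq v _)
        (prod_pos fun e _ => prod_pos fun i _ => hp _ _))
      (LSM.mul (LSM.prod _ (fun v _ => LSM.prod _ (fun i _ => (hqs v).comp
          (fun (y : V × J → Fin N → Bool) j => y (v, j) i) (fun _ _ => rfl) fun _ _ => rfl)
          fun i _ a => (hq v _).le) fun v _ a => prod_nonneg fun i _ => (hq v _).le)
        (LSM.prod _ (fun e _ => LSM.prod _ (fun i _ => hps.comp (fun y : V × J → Fin N → Bool =>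
            ((fun j => y (e.1.1, j) i), fun j => y (e.1.2, j) (σ e i)))
          (fun _ _ => rfl) fun _ _ => rfl) fun i _ a => (hp _ _).le)
          fun e _ a => prod_nonneg fun i _ => (hp _ _).le)
        (fun y => prod_nonneg fun v _ => prod_nonneg fun i _ => (hq v _).le)
        fun y => prod_nonneg fun e _ => prod_nonneg fun i _ => (hp _ _).le) fun y => ?_
    simp only [hF, hg]
    rw [prod_mul_distrib, prod_comm (s := (univ : Finset (Fin N))) (t := (univ : Finset V)),
      prod_comm (s := (univ : Finset (Fin N))) (t := (univ : Finset E))]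
    refine mul_le_mul (prod_le_prod (fun v _ => prod_nonneg fun i _ => (hq v _).le) fun v _ => ?_)
      (prod_le_prod (fun e _ => prod_nonneg fun i _ => (hp _ _).le) fun e _ => ?_)
      (prod_nonneg fun e _ => prod_nonneg fun i _ => (hp _ _).le)
      (prod_nonneg fun v _ => prod_nonneg fun i _ => (hq v _).le)
    · exact sort_bound N (qs v) (fun a => (hq v a).le) (hqs v) fun i j => y (v, j) i
    · refine (sort_bound N (fun c : J ⊕ J → Bool => ψ (c ∘ Sum.inl) (c ∘ Sum.inr))
        (fun c => (hp _ _).le) (hps.comp (fun c : J ⊕ J → Bool => (c ∘ Sum.inl, c ∘ Sum.inr))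
          (fun _ _ => rfl) fun _ _ => rfl)
        fun i => Sum.elim (fun j => y (e.1.1, j) i) fun j => y (e.1.2, j) (σ e i)).trans_eq ?_
      refine prod_congr rfl fun i _ => congrArg₂ ψ (funext fun j => rfl) (funext fun j => ?_)
      show decide (i.val < cnt fun i' => y (e.1.2, j) (σ e i')) =
        decide (i.val < cnt (y (e.1.2, j)))
      rw [show (fun i' => y (e.1.2, j) (σ e i')) = y (e.1.2, j) ∘ σ e from rfl, cnt_comp]
  refine le_of_eq_of_le ?_ (hb.trans_eq ?_)
  · refine Fintype.sum_equiv ⟨fun x p i => x p.1 i p.2, fun y v i j => y (v, j) i,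
      fun _ => rfl, fun _ => rfl⟩ _ _ fun x => rfl
  · congr 1
    refine Fintype.sum_equiv (Equiv.curry V J Bool) _ _ fun a => ?_
    simp only [hg]
    refine congrArg₂ (· * ·) rfl ?_
    exact prod_coe_sort E fun e => ψ (fun j => a (e.1, j)) fun j => a (e.2, j)

/-- Sidorenko's inequality for positive weights on a cube. -/
theorem cube_pos {E : Finset (V × V)} {side : V → Bool}
    (hE : ∀ e ∈ E, side e.1 = false ∧ side e.2 = true) {qA qB : (J → Bool) → ℝ}
    {ψ : (J → Bool) → (J → Bool) → ℝ} (hA : ∀ a, 0 < qA a) (hB : ∀ a, 0 < qB a)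
    (sA : ∑ a, qA a = 1) (sB : ∑ a, qB a = 1) (hp : ∀ a b, 0 < ψ a b) (lA : LSM qA)
    (lB : LSM qB) (lp : LSM fun c : (J → Bool) × (J → Bool) => ψ c.1 c.2) :
    (∑ a, ∑ b, qA a * qB b * ψ a b) ^ E.card ≤
      Zs E (fun v => if side v then qB else qA) ψ := by
  set qs := fun v => if side v then qB else qA with hqs
  have hq : ∀ v a, 0 < qs v a := fun v a => by by_cases h : side v <;> simp [qs, h, hA, hB]
  have lq : ∀ v, LSM (qs v) := fun v => by by_cases h : side v <;> simp [qs, h, lA, lB]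
  have sq : ∀ v, ∑ a, qs v a = 1 := fun v => by
    by_cases h : side v <;> simp only [qs, h, if_true, Bool.false_eq_true, if_false, sA, sB]
  set p := ∑ a, ∑ b, qA a * qB b * ψ a b
  set m := E.card
  set c := Fintype.card (J → Bool)
  have hpp : 0 < p := sum_pos (fun a _ => sum_pos (fun b _ =>
    mul_pos (mul_pos (hA a) (hB b)) (hp a b)) univ_nonempty) univ_nonempty
  have hZ : 0 < Zs E qs ψ := sum_pos (fun x _ => mul_pos (prod_pos fun v _ => hq v _)
    (prod_pos fun e _ => hp _ _)) univ_nonempty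
  suffices key : ∀ N : ℕ, (p ^ m) ^ N ≤
      ((N : ℝ) + 1) ^ (c * (2 * m + Fintype.card V)) * Zs E qs ψ ^ N by
    by_contra hlt
    push Not at hlt
    set d := c * (2 * m + Fintype.card V)
    set ρ := Zs E qs ψ / p ^ m
    have hρ1 : ρ < 1 := (div_lt_one (pow_pos hpp m)).2 hlt
    have hρ0 : 0 < ρ := div_pos hZ (pow_pos hpp m)
    have t := tendsto_pow_const_mul_const_pow_of_abs_lt_one d
      (show |ρ| < 1 by rwa [abs_of_pos hρ0])
    obtain ⟨n, hn, h1⟩ := ((t.eventually_lt_const (show (0 : ℝ) < 1 / 2 ^ d by positivity)).and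
      (Filter.eventually_ge_atTop 1)).exists
    have hb : ((n : ℝ) + 1) ^ d ≤ 2 ^ d * (n : ℝ) ^ d := by
      rw [← mul_pow]
      refine pow_le_pow_left₀ (by positivity) ?_ d
      have : (1 : ℝ) ≤ n := by exact_mod_cast h1
      linarith
    have k := key n
    have : (1 : ℝ) ≤ ((n : ℝ) + 1) ^ d * ρ ^ n := by
      rw [div_pow, ← mul_div_assoc, le_div_iff₀ (by positivity), one_mul]
      exact k
    have h2 : ((n : ℝ) + 1) ^ d * ρ ^ n ≤ 2 ^ d * ((n : ℝ) ^ d * ρ ^ n) := by
      rw [← mul_assoc]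
      exact mul_le_mul_of_nonneg_right hb (by positivity)
    rw [lt_div_iff₀ (by positivity)] at hn
    linarith
  intro N
  set K : ℝ := (Fintype.card (Equiv.Perm (Fin N)) : ℝ) with hKdef
  have hK : 0 < K := by rw [hKdef]; exact Nat.cast_pos.2 Fintype.card_pos
  have avg : ∑ x : V → Fin N → J → Bool, (∏ v, wt (qs v) (x v)) *
      ∏ e : E, avgS ψ (x e.1.1) (x e.1.2) ≤ K ^ m * Zs E qs ψ ^ N := by
    have h := sum_le_sum (s := (univ : Finset (E → Equiv.Perm (Fin N))))
      fun σ _ => lift_bound (N := N) hq hp lq lp σ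
    rw [sum_const, card_univ, Fintype.card_fun, Fintype.card_coe, nsmul_eq_mul, Nat.cast_pow,
      sum_comm] at h
    refine le_of_eq_of_le (sum_congr rfl fun x _ => ?_) h
    rw [← mul_sum]
    exact congrArg _ (Fintype.prod_sum fun (e : E) (π : Equiv.Perm (Fin N)) =>
      ∏ i, ψ (x e.1.1 i) (x e.1.2 (π i)))
  obtain ⟨A₀, B₀, hAB⟩ := exists_types (N := N) hA hB hp
  set bA := cls N qA (hist A₀)
  set bB := cls N qB (hist B₀)
  set ε := 1 / ((N : ℝ) + 1) ^ c with hε
  have hε0 : 0 ≤ ε := by positivity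
  have hε1 : ε ≤ 1 := (div_le_one (by positivity)).2
    (one_le_pow₀ (by linarith [show (0 : ℝ) ≤ N from N.cast_nonneg]))
  have a0 := cls_nonneg (N := N) hA (hist A₀)
  have b0 := cls_nonneg (N := N) hB (hist B₀)
  have a1 := cls_le_one (N := N) hA sA (hist A₀)
  have b1 := cls_le_one (N := N) hB sB (hist B₀)
  set As := E.image Prod.fst
  set Bs := E.image Prod.snd
  have sideA : ∀ v ∈ As, side v = false := fun v hv => by
    obtain ⟨e, he, rfl⟩ := mem_image.1 hv
    exact (hE e he).1
  have sideB : ∀ v ∈ Bs, side v = true := fun v hv => by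
    obtain ⟨e, he, rfl⟩ := mem_image.1 hv
    exact (hE e he).2
  choose mode hmode using fun v => exists_mode (N := N) (sq v)
  set jv := fun v => if v ∈ As then hist A₀ else if v ∈ Bs then hist B₀ else mode v
  have hv : ∀ v, (if v ∈ As then bA else 1) * (if v ∈ Bs then bB else 1) * ε ≤
      cls N (qs v) (jv v) := fun v => by
    by_cases ha : v ∈ As
    · have hb : v ∉ Bs := fun h => by have := sideA v ha; rw [sideB v h] at this; cases this
      simp only [qs, jv, ha, hb, if_true, if_false, sideA v ha, Bool.false_eq_true, mul_one]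
      exact mul_le_of_le_one_right a0 hε1
    · by_cases hb : v ∈ Bs
      · simp only [qs, jv, ha, hb, if_true, if_false, sideB v hb, one_mul]
        exact mul_le_of_le_one_right b0 hε1
      · simp only [jv, ha, hb, if_false, one_mul]
        exact hmode v
  have hprod : bA ^ m * bB ^ m * ε ^ Fintype.card V ≤ ∏ v, cls N (qs v) (jv v) := by
    refine le_trans ?_ (prod_le_prod (fun v _ => by
      refine mul_nonneg (mul_nonneg ?_ ?_) hε0 <;> split_ifs <;>
        first | exact a0 | exact b0 | exact zero_le_one) fun v _ => hv v)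
    rw [prod_mul_distrib, prod_mul_distrib, prod_const, card_univ, prod_ite_mem, prod_ite_mem,
      univ_inter, univ_inter, prod_const, prod_const]
    refine mul_le_mul_of_nonneg_right (mul_le_mul ?_ ?_ (pow_nonneg b0 _) (pow_nonneg a0 _))
      (pow_nonneg hε0 _)
    · exact pow_le_pow_of_le_one a0 a1 card_image_le
    · exact pow_le_pow_of_le_one b0 b1 card_image_le
  set S₀ := avgS ψ A₀ B₀
  have hS : 0 ≤ S₀ := sum_nonneg fun π _ => prod_nonneg fun i _ => (hp _ _).le
  have low : S₀ ^ m * ∏ v, cls N (qs v) (jv v) ≤ K ^ m * Zs E qs ψ ^ N := by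
    refine le_trans ?_ avg
    simp only [cls]
    rw [prod_univ_sum, mul_sum]
    refine le_trans (le_of_eq (sum_congr rfl fun x hx => ?_))
      (sum_le_univ_sum_of_nonneg fun x => mul_nonneg (prod_nonneg fun v _ => prod_nonneg fun i _ =>
        (hq v _).le) (prod_nonneg fun e _ => sum_nonneg fun π _ => prod_nonneg fun i _ =>
          (hp _ _).le))
    rw [mul_comm]
    refine congrArg _ ?_
    have hc : ∀ e : E, avgS ψ (x e.1.1) (x e.1.2) = S₀ := fun e => by
      have hx' := fun v => (mem_filter.1 (Fintype.mem_piFinset.1 hx v)).2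
      have ha : e.1.1 ∈ As := mem_image_of_mem _ e.2
      have hb : e.1.2 ∈ Bs := mem_image_of_mem _ e.2
      have hb' : e.1.2 ∉ As := fun h => by
        have := sideA _ h; rw [sideB _ hb] at this; cases this
      exact avgS_congr ψ ((hx' _).trans (if_pos ha))
        ((hx' _).trans ((if_neg hb').trans (if_pos hb)))
    rw [prod_congr rfl (fun e _ => hc e), prod_const, card_univ, Fintype.card_coe]
  have main : (K * p ^ N * ε ^ 2) ^ m * ε ^ Fintype.card V ≤ K ^ m * Zs E qs ψ ^ N := by
    refine le_trans ?_ low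
    refine le_trans (mul_le_mul_of_nonneg_right (pow_le_pow_left₀ (by positivity)
      (show K * p ^ N * ε ^ 2 ≤ bA * bB * S₀ by
        refine le_of_eq_of_le ?_ hAB
        rw [hε, one_div, inv_pow, div_eq_mul_inv]) m) (pow_nonneg hε0 _)) ?_
    rw [show (bA * bB * S₀) ^ m * ε ^ Fintype.card V =
      S₀ ^ m * (bA ^ m * bB ^ m * ε ^ Fintype.card V) by rw [mul_pow, mul_pow]; ring]
    exact mul_le_mul_of_nonneg_left hprod (pow_nonneg hS _)
  rw [show (K * p ^ N * ε ^ 2) ^ m * ε ^ Fintype.card V =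
    K ^ m * ((p ^ m) ^ N * ε ^ (2 * m + Fintype.card V)) by
      rw [mul_pow, mul_pow, ← pow_mul, ← pow_mul, ← pow_mul, pow_add, mul_comm N m]; ring] at main
  have := le_of_mul_le_mul_left main (pow_pos hK m)
  rw [hε, one_div, inv_pow, ← pow_mul, ← div_eq_mul_inv, div_le_iff₀ (by positivity)] at this
  rw [← pow_mul] at this ⊢
  linarith

/-! ### Zeros -/

/-- Flip every bit with probability `δ`. -/
def noise (δ : ℝ) (b a : J → Bool) : ℝ := ∏ j, if b j = a j then 1 - δ else δ

/-- Smoothing of a function on the cube. -/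
def smooth (δ : ℝ) (q : (J → Bool) → ℝ) (a : J → Bool) : ℝ := ∑ b, q b * noise δ b a

/-- Smoothing of a function of two points of the cube. -/
def smooth₂ (δ : ℝ) (ψ : (J → Bool) → (J → Bool) → ℝ) (a a' : J → Bool) : ℝ :=
  ∑ c : (J → Bool) × (J → Bool), ψ c.1 c.2 * (noise δ c.1 a * noise δ c.2 a')

lemma noise_pos {δ : ℝ} (h0 : 0 < δ) (h1 : δ < 1 / 2) (b a : J → Bool) : 0 < noise δ b a :=
  prod_pos fun j _ => by split_ifs <;> linarith

lemma sum_noise (δ : ℝ) (b : J → Bool) : ∑ a, noise δ b a = 1 := by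
  simp only [noise]
  rw [← Fintype.prod_sum fun j (a : Bool) => if b j = a then 1 - δ else δ]
  refine prod_eq_one fun j _ => ?_
  cases b j <;> simp

lemma noise_zero (b a : J → Bool) : noise 0 b a = if b = a then 1 else 0 := by
  simp only [noise, sub_zero]
  rw [Fintype.prod_boole]
  simp [funext_iff]

lemma lsm_noise {δ : ℝ} (h0 : 0 < δ) (h1 : δ < 1 / 2) :
    LSM fun c : (J → Bool) × (J → Bool) => noise δ c.1 c.2 := by
  refine LSM.prod univ (f := fun j (c : (J → Bool) × (J → Bool)) =>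
    if c.1 j = c.2 j then 1 - δ else δ) (fun j _ => ?_) fun j _ c => ?_
  swap
  · show 0 ≤ if c.1 j = c.2 j then 1 - δ else δ
    split_ifs <;> linarith
  refine LSM.comp (f := fun c : Bool × Bool => if c.1 = c.2 then 1 - δ else δ) ?_
    (fun c : (J → Bool) × (J → Bool) => (c.1 j, c.2 j)) (fun _ _ => rfl) fun _ _ => rfl
  rintro ⟨a, b⟩ ⟨a', b'⟩
  cases a <;> cases b <;> cases a' <;> cases b' <;> simp <;> nlinarith

/-- Sidorenko's inequality for nonnegative log-supermodular weights on a cube. -/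
theorem cube {E : Finset (V × V)} {side : V → Bool}
    (hE : ∀ e ∈ E, side e.1 = false ∧ side e.2 = true) {qA qB : (J → Bool) → ℝ}
    {ψ : (J → Bool) → (J → Bool) → ℝ} (hA : ∀ a, 0 ≤ qA a) (hB : ∀ a, 0 ≤ qB a)
    (sA : ∑ a, qA a = 1) (sB : ∑ a, qB a = 1) (hp : ∀ a b, 0 ≤ ψ a b) (lA : LSM qA)
    (lB : LSM qB) (lp : LSM fun c : (J → Bool) × (J → Bool) => ψ c.1 c.2) :
    (∑ a, ∑ b, qA a * qB b * ψ a b) ^ E.card ≤
      Zs E (fun v => if side v then qB else qA) ψ := by
  have hZ0 : 0 ≤ Zs E (fun v => if side v then qB else qA) ψ := sum_nonneg fun x _ =>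
    mul_nonneg (prod_nonneg fun v _ => by by_cases h : side v <;> simp [h, hA, hB])
      (prod_nonneg fun e _ => hp _ _)
  rcases E.eq_empty_or_nonempty with rfl | hne
  · simp only [card_empty, pow_zero, Zs, prod_empty, mul_one]
    rw [← Fintype.prod_sum fun v a => (if side v then qB else qA) a]
    refine le_of_eq (prod_eq_one fun v _ => ?_).symm
    by_cases h : side v <;> simp [h, sA, sB]
  by_cases h0 : ∀ a b, ψ a b = 0
  · simpa [h0, zero_pow hne.card_pos.ne'] using hZ0
  push Not at h0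
  obtain ⟨a₀, b₀, h0⟩ := h0
  have key : ∀ δ : ℝ, 0 < δ → δ < 1 / 2 →
      (∑ a, ∑ b, smooth δ qA a * smooth δ qB b * smooth₂ δ ψ a b) ^ E.card ≤
        Zs E (fun v a => if side v then smooth δ qB a else smooth δ qA a) (smooth₂ δ ψ) := by
    intro δ d0 d1
    have ln := lsm_noise (J := J) d0 d1
    have nn := fun b a => (noise_pos (J := J) d0 d1 b a).le
    have h1 : ∀ q : (J → Bool) → ℝ, (∀ a, 0 ≤ q a) → ∑ a, q a = 1 → LSM q →
        (∀ a, 0 < smooth δ q a) ∧ (∑ a, smooth δ q a = 1) ∧ LSM (smooth δ q) := by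
      intro q hq sq lq
      refine ⟨fun a => ?_, ?_, ?_⟩
      · obtain ⟨b, -, hb⟩ := exists_ne_zero_of_sum_ne_zero (show ∑ b, q b ≠ 0 by rw [sq]; norm_num)
        exact sum_pos' (fun b _ => mul_nonneg (hq b) (nn b a))
          ⟨b, mem_univ _, mul_pos (lt_of_le_of_ne (hq b) (Ne.symm hb)) (noise_pos d0 d1 b a)⟩
      · simp only [smooth]
        rw [sum_comm]
        simp only [← mul_sum, sum_noise, mul_one, sq]
      · exact lsm_marginal (fun b a => q b * noise δ b a) (fun b a => mul_nonneg (hq b) (nn b a))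
          fun a b y z => LSM.mul (f := fun c : (J → Bool) × (J → Bool) => q c.1)
            (g := fun c => noise δ c.1 c.2) (lq.comp Prod.fst (fun _ _ => rfl) fun _ _ => rfl) ln
            (fun c => hq _) (fun c => nn _ _) (a, y) (b, z)
    obtain ⟨pA, eA, mA⟩ := h1 qA hA sA lA
    obtain ⟨pB, eB, mB⟩ := h1 qB hB sB lB
    have := cube_pos hE (ψ := smooth₂ δ ψ) pA pB eA eB
      (fun a b => sum_pos' (fun c _ => mul_nonneg (hp _ _) (mul_nonneg (nn _ _) (nn _ _)))
        ⟨(a₀, b₀), mem_univ _, mul_pos (lt_of_le_of_ne (hp _ _) (Ne.symm h0))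
          (mul_pos (noise_pos d0 d1 _ _) (noise_pos d0 d1 _ _))⟩) mA mB ?_
    · refine this.trans_eq (sum_congr rfl fun x _ => ?_)
      exact congrArg (· * _) (prod_congr rfl fun v _ => by by_cases h : side v <;> simp [h])
    refine lsm_marginal (fun (c a : (J → Bool) × (J → Bool)) => ψ c.1 c.2 * (noise δ c.1 a.1 * noise δ c.2 a.2))
      (fun c a => mul_nonneg (hp _ _) (mul_nonneg (nn _ _) (nn _ _))) fun a b y z => ?_
    exact LSM.mul (f := fun u : ((J → Bool) × (J → Bool)) × ((J → Bool) × (J → Bool)) =>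
        ψ u.1.1 u.1.2) (g := fun u => noise δ u.1.1 u.2.1 * noise δ u.1.2 u.2.2)
      (lp.comp Prod.fst (fun _ _ => rfl) fun _ _ => rfl)
      (LSM.mul (ln.comp (fun u : ((J → Bool) × (J → Bool)) × ((J → Bool) × (J → Bool)) =>
          (u.1.1, u.2.1)) (fun _ _ => rfl) fun _ _ => rfl)
        (ln.comp (fun u : ((J → Bool) × (J → Bool)) × ((J → Bool) × (J → Bool)) =>
          (u.1.2, u.2.2)) (fun _ _ => rfl) fun _ _ => rfl)
        (fun u => nn _ _) fun u => nn _ _)
      (fun u => hp _ _) (fun u => mul_nonneg (nn _ _) (nn _ _)) (a, y) (b, z)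
  have e1 : ∀ q : (J → Bool) → ℝ, smooth 0 q = q := fun q => funext fun a => by
    simp [smooth, noise_zero]
  have e2 : smooth₂ 0 ψ = ψ := funext fun a => funext fun b => by
    simp [smooth₂, noise_zero, Fintype.sum_prod_type]
  have cn : ∀ b a : J → Bool, Continuous fun δ : ℝ => noise δ b a := fun b a =>
    continuous_finsetProd _ fun j _ => by split_ifs <;> fun_prop
  have c1 : ∀ q : (J → Bool) → ℝ, ∀ a, Continuous fun δ : ℝ => smooth δ q a := fun q a =>
    continuous_finsetSum _ fun b _ => continuous_const.mul (cn _ _)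
  have c2 : ∀ a b, Continuous fun δ : ℝ => smooth₂ δ ψ a b := fun a b =>
    continuous_finsetSum _ fun c _ => continuous_const.mul ((cn _ _).mul (cn _ _))
  have cl : Continuous fun δ : ℝ =>
      (∑ a, ∑ b, smooth δ qA a * smooth δ qB b * smooth₂ δ ψ a b) ^ E.card :=
    (continuous_finsetSum _ fun a _ => continuous_finsetSum _ fun b _ =>
      ((c1 qA a).mul (c1 qB b)).mul (c2 a b)).pow _
  have cr : Continuous fun δ : ℝ =>
      Zs E (fun v a => if side v then smooth δ qB a else smooth δ qA a) (smooth₂ δ ψ) :=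
    continuous_finsetSum _ fun x _ => (continuous_finsetProd _ fun v _ => by
      by_cases h : side v
      · simp only [h, if_true]; exact c1 qB _
      · simp only [h]; exact c1 qA _).mul (continuous_finsetProd _ fun e _ => c2 _ _)
  have ev : ∀ᶠ δ in nhdsWithin (0 : ℝ) (Set.Ioi 0), 0 < δ ∧ δ < 1 / 2 :=
    eventually_nhdsWithin_of_forall (fun δ (h : 0 < δ) => h) |>.and
      (nhdsWithin_le_nhds (gt_mem_nhds (by norm_num)))
  have := le_of_tendsto_of_tendsto (b := nhdsWithin (0 : ℝ) (Set.Ioi 0))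
    (cl.tendsto 0 |>.mono_left nhdsWithin_le_nhds) (cr.tendsto 0 |>.mono_left nhdsWithin_le_nhds)
    (ev.mono fun δ h => key δ h.1 h.2)
  simp only [e1, e2] at this
  refine this.trans_eq (sum_congr rfl fun x _ => congrArg (· * _) (prod_congr rfl fun v _ => ?_))
  by_cases h : side v <;> simp [h]

/-! ### Sublattices -/

/-- `u` is log-supermodular for the lattice operations carried over from the cube by `α`. -/
structure Emb {X : Type*} (α : X → J → Bool) : Prop where
  inj : Function.Injective α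
  sup : ∀ x y, ∃ z, α z = α x ⊔ α y
  inf : ∀ x y, ∃ z, α z = α x ⊓ α y

/-- Sidorenko's inequality for weights on two sublattices of a cube. -/
theorem sublattice {X : Type*} [Fintype X] {E : Finset (V × V)} {side : V → Bool}
    (hE : ∀ e ∈ E, side e.1 = false ∧ side e.2 = true) {α β : X → J → Bool} (hα : Emb α)
    (hβ : Emb β) {q : X → ℝ} {W : X → X → ℝ} (hq : ∀ x, 0 ≤ q x) (sq : ∑ x, q x = 1)
    (hW : ∀ x y, 0 ≤ W x y)
    (qα : ∀ x x' u v, α u = α x ⊔ α x' → α v = α x ⊓ α x' → q x * q x' ≤ q u * q v)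
    (qβ : ∀ x x' u v, β u = β x ⊔ β x' → β v = β x ⊓ β x' → q x * q x' ≤ q u * q v)
    (hl : ∀ x x' u v y y' s t, α u = α x ⊔ α x' → α v = α x ⊓ α x' → β s = β y ⊔ β y' →
      β t = β y ⊓ β y' → W x y * W x' y' ≤ W u s * W v t) :
    (∑ x, ∑ y, q x * q y * W x y) ^ E.card ≤
      ∑ f : V → X, (∏ v, q (f v)) * ∏ e ∈ E, W (f e.1) (f e.2) := by
  classical
  set qA : (J → Bool) → ℝ := Function.extend α q 0
  set qB : (J → Bool) → ℝ := Function.extend β q 0
  set ψ : (J → Bool) → (J → Bool) → ℝ :=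
    Function.extend α (fun x => Function.extend β (W x) 0) 0
  have eA : ∀ x, qA (α x) = q x := fun x => hα.inj.extend_apply _ _ x
  have eB : ∀ x, qB (β x) = q x := fun x => hβ.inj.extend_apply _ _ x
  have eW : ∀ x y, ψ (α x) (β y) = W x y := fun x y => by
    simp only [ψ, hα.inj.extend_apply, hβ.inj.extend_apply]
  have zA : ∀ a, (¬∃ x, α x = a) → qA a = 0 := fun a h => Function.extend_apply' _ _ _ h
  have zB : ∀ a, (¬∃ x, β x = a) → qB a = 0 := fun a h => Function.extend_apply' _ _ _ h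
  have zW : ∀ a b, ¬((∃ x, α x = a) ∧ ∃ y, β y = b) → ψ a b = 0 := fun a b h => by
    by_cases ha : ∃ x, α x = a
    · obtain ⟨x, rfl⟩ := ha
      simp only [ψ, hα.inj.extend_apply]
      exact Function.extend_apply' _ _ _ fun hb => h ⟨⟨x, rfl⟩, hb⟩
    · simp only [ψ, Function.extend_apply' _ _ _ ha, Pi.zero_apply]
  have one : ∀ (γ : X → J → Bool) (Q : (J → Bool) → ℝ), Emb γ → (∀ x, Q (γ x) = q x) →
      (∀ a, (¬∃ x, γ x = a) → Q a = 0) →
      (∀ x x' u v, γ u = γ x ⊔ γ x' → γ v = γ x ⊓ γ x' → q x * q x' ≤ q u * q v) →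
      (∀ a, 0 ≤ Q a) ∧ (∑ a, Q a = 1) ∧ LSM Q := fun γ Q hγ e z h => by
    have p : ∀ a, 0 ≤ Q a := fun a => by
      by_cases ha : ∃ x, γ x = a
      · obtain ⟨x, rfl⟩ := ha
        rw [e]; exact hq x
      · rw [z a ha]
    refine ⟨p, ?_, fun a b => ?_⟩
    · rw [← sq]
      exact (Fintype.sum_of_injective γ hγ.inj _ _
        (fun a ha => z a fun ⟨x, hx⟩ => ha ⟨x, hx⟩) fun x => (e x).symm).symm
    · by_cases hab : (∃ x, γ x = a) ∧ ∃ x, γ x = b
      · obtain ⟨⟨x, rfl⟩, x', rfl⟩ := hab
        obtain ⟨u, hu⟩ := hγ.sup x x'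
        obtain ⟨v, hv⟩ := hγ.inf x x'
        rw [← hu, ← hv, e, e, e, e]
        exact h x x' u v hu hv
      · have : Q a * Q b = 0 := by
          rw [mul_eq_zero]
          rcases not_and_or.1 hab with h | h
          · exact Or.inl (z a h)
          · exact Or.inr (z b h)
        rw [this]
        exact mul_nonneg (p _) (p _)
  obtain ⟨pA, sA, lA⟩ := one α qA hα eA zA qα
  obtain ⟨pB, sB, lB⟩ := one β qB hβ eB zB qβ
  have pW : ∀ a b, 0 ≤ ψ a b := fun a b => by
    by_cases h : (∃ x, α x = a) ∧ ∃ y, β y = b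
    · obtain ⟨⟨x, rfl⟩, y, rfl⟩ := h
      rw [eW]; exact hW x y
    · rw [zW a b h]
  have lW : LSM fun c : (J → Bool) × (J → Bool) => ψ c.1 c.2 := fun c d => by
    by_cases h : ((∃ x, α x = c.1) ∧ ∃ y, β y = c.2) ∧ (∃ x, α x = d.1) ∧ ∃ y, β y = d.2
    · obtain ⟨⟨⟨x, hx⟩, y, hy⟩, ⟨x', hx'⟩, y', hy'⟩ := h
      obtain ⟨u, hu⟩ := hα.sup x x'
      obtain ⟨v, hv⟩ := hα.inf x x'
      obtain ⟨s, hs⟩ := hβ.sup y y'
      obtain ⟨t, ht⟩ := hβ.inf y y'
      simp only [Prod.fst_sup, Prod.snd_sup, Prod.fst_inf, Prod.snd_inf, ← hx, ← hy, ← hx', ← hy',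
        ← hu, ← hv, ← hs, ← ht, eW]
      exact hl x x' u v y y' s t hu hv hs ht
    · have : ψ c.1 c.2 * ψ d.1 d.2 = 0 := by
        rw [mul_eq_zero]
        rcases not_and_or.1 h with h | h
        · exact Or.inl (zW _ _ h)
        · exact Or.inr (zW _ _ h)
      show ψ c.1 c.2 * ψ d.1 d.2 ≤ _
      rw [this]
      exact mul_nonneg (pW _ _) (pW _ _)
  have := cube hE pA pB sA sB pW lA lB lW
  refine le_of_eq_of_le ?_ (this.trans_eq ?_)
  · congr 1
    refine Fintype.sum_of_injective α hα.inj _ _ (fun a ha => ?_) fun x => ?_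
    · exact sum_eq_zero fun b _ => by rw [zA a fun ⟨x, hx⟩ => ha ⟨x, hx⟩]; ring
    · refine Fintype.sum_of_injective β hβ.inj _ _ (fun b hb => ?_) fun y => ?_
      · rw [zB b fun ⟨y, hy⟩ => hb ⟨y, hy⟩]; ring
      · rw [eA, eB, eW]
  · symm
    refine Fintype.sum_of_injective (fun (f : V → X) v => if side v then β (f v) else α (f v))
      (fun f g h => funext fun v => ?_) _ _ (fun x hx => ?_) fun f => ?_
    · have h' := congrFun h v
      by_cases hs : side v
      · simp only [hs, if_true] at h'; exact hβ.inj h'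
      · simp only [hs] at h'; exact hα.inj h'
    · by_contra hne
      refine hx ?_
      have hv : ∀ v, ∃ z, (if side v then β z else α z) = x v := fun v => by
        have h1 : (if side v then qB else qA) (x v) ≠ 0 := fun h =>
          hne (by rw [prod_eq_zero (mem_univ v) h, zero_mul])
        by_cases hs : side v
        · simp only [hs, if_true] at h1 ⊢
          exact not_not.1 fun h => h1 (zB _ h)
        · simp only [hs] at h1 ⊢
          exact not_not.1 fun h => h1 (zA _ h)
      choose f hf using hv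
      exact ⟨f, funext hf⟩
    · refine congrArg₂ (· * ·) (prod_congr rfl fun v _ => ?_) (prod_congr rfl fun e he => ?_)
      · by_cases hs : side v <;> simp [hs, eA, eB]
      · simp [(hE e he).1, (hE e he).2, eW]

end Vale.Agent.P050.Lattice
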