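import Vale.Agent.P050.Lattice
import Vale.Agent.P050.Graphs
import Mathlib.Data.Fin.Tuple.Sort

/-!
P050: targets whose adjacency relation is a sublattice, kernels which are totally positive of
order two, and kernels of rank two.
-/

noncomputable section

namespace Vale.Agent.P050.Lattice

open Finset
open scoped Classical

/-- The thermometer code of a finite chain. -/
def code {X : Type*} {n : ℕ} (σ : X ≃ Fin n) (x : X) (i : Fin n) : Bool := decide (i < σ x)

lemma code_le {X : Type*} {n : ℕ} (σ : X ≃ Fin n) {x y : X} (h : σ x ≤ σ y) :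
    code σ x ⊔ code σ y = code σ y ∧ code σ x ⊓ code σ y = code σ x := by
  have : code σ x ≤ code σ y := fun i => by
    simp only [code]
    by_cases h' : i < σ x
    · simp [lt_of_lt_of_le h' h]
    · simp [h']
  exact ⟨sup_eq_right.2 this, inf_eq_left.2 this⟩

lemma code_inj {X : Type*} {n : ℕ} (σ : X ≃ Fin n) : Function.Injective (code σ) := fun x y h => by
  apply σ.injective
  by_contra hne
  rcases lt_or_gt_of_ne hne with hl | hl
  · have := congrFun h (σ x)
    simp [code, hl] at this
  · have := congrFun h (σ y)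
    simp [code, hl] at this

lemma emb_code {X : Type*} {n : ℕ} (σ : X ≃ Fin n) : Emb (code σ) :=
  ⟨code_inj σ,
    fun x y => (le_total (σ x) (σ y)).elim (fun h => ⟨y, (code_le σ h).1.symm⟩)
      fun h => ⟨x, by rw [sup_comm]; exact (code_le σ h).1.symm⟩,
    fun x y => (le_total (σ x) (σ y)).elim (fun h => ⟨x, (code_le σ h).2.symm⟩)
      fun h => ⟨y, by rw [inf_comm]; exact (code_le σ h).2.symm⟩⟩

lemma code_ops {X : Type*} {n : ℕ} (σ : X ≃ Fin n) {x x' u v : X}
    (hu : code σ u = code σ x ⊔ code σ x') (hv : code σ v = code σ x ⊓ code σ x') :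
    (σ x ≤ σ x' ∧ u = x' ∧ v = x) ∨ (σ x' ≤ σ x ∧ u = x ∧ v = x') := by
  rcases le_total (σ x) (σ x') with h | h
  · rw [(code_le σ h).1] at hu
    rw [(code_le σ h).2] at hv
    exact Or.inl ⟨h, code_inj σ hu, code_inj σ hv⟩
  · rw [sup_comm, (code_le σ h).1] at hu
    rw [inf_comm, (code_le σ h).2] at hv
    exact Or.inr ⟨h, code_inj σ hu, code_inj σ hv⟩

variable {V : Type*} [Fintype V] [DecidableEq V] {X : Type*} [Fintype X]

/-- Sidorenko's inequality for weights which are totally positive of order two. -/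
theorem tp2 {E : Finset (V × V)} {side : V → Bool}
    (hE : ∀ e ∈ E, side e.1 = false ∧ side e.2 = true) {n : ℕ} (σ τ : X ≃ Fin n) {q : X → ℝ}
    {W : X → X → ℝ} (hq : ∀ x, 0 ≤ q x) (sq : ∑ x, q x = 1) (hW : ∀ x y, 0 ≤ W x y)
    (h : ∀ x x' y y', σ x ≤ σ x' → τ y ≤ τ y' → W x y' * W x' y ≤ W x y * W x' y') :
    (∑ x, ∑ y, q x * q y * W x y) ^ E.card ≤
      ∑ f : V → X, (∏ v, q (f v)) * ∏ e ∈ E, W (f e.1) (f e.2) := by
  refine sublattice hE (emb_code σ) (emb_code τ) hq sq hW
    (fun x x' u v hu hv => ?_) (fun x x' u v hu hv => ?_) fun x x' u v y y' s t hu hv hs ht => ?_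
  · rcases code_ops σ hu hv with ⟨-, e, e'⟩ | ⟨-, e, e'⟩ <;> rw [e, e'] <;>
      linarith [mul_comm (q x) (q x')]
  · rcases code_ops τ hu hv with ⟨-, e, e'⟩ | ⟨-, e, e'⟩ <;> rw [e, e'] <;>
      linarith [mul_comm (q x) (q x')]
  · rcases code_ops σ hu hv with ⟨a, rfl, rfl⟩ | ⟨a, rfl, rfl⟩ <;>
      rcases code_ops τ hs ht with ⟨b, rfl, rfl⟩ | ⟨b, rfl, rfl⟩
    · linarith
    · linarith [h _ _ _ _ a b]
    · linarith [h _ _ _ _ a b]
    · linarith

/-- Sidorenko's inequality for nonnegative kernels of rank two with a positive vector. -/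
theorem rank_two {E : Finset (V × V)} {side : V → Bool}
    (hE : ∀ e ∈ E, side e.1 = false ∧ side e.2 = true) {q u w : X → ℝ} {s t : ℝ}
    (hq : ∀ x, 0 ≤ q x) (sq : ∑ x, q x = 1) (hu : ∀ x, 0 < u x)
    (hW : ∀ x y, 0 ≤ s * u x * u y + t * w x * w y) :
    (∑ x, ∑ y, q x * q y * (s * u x * u y + t * w x * w y)) ^ E.card ≤
      ∑ f : V → X, (∏ v, q (f v)) *
        ∏ e ∈ E, (s * u (f e.1) * u (f e.2) + t * w (f e.1) * w (f e.2)) := by
  set e := Fintype.equivFin X
  set f := fun i => w (e.symm i) / u (e.symm i)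
  set σ : X ≃ Fin (Fintype.card X) := e.trans (Tuple.sort f).symm
  have mono : ∀ x x', σ x ≤ σ x' → 0 ≤ u x * w x' - u x' * w x := fun x x' h => by
    have := Tuple.monotone_sort f h
    simp only [σ, f, Function.comp_apply, Equiv.trans_apply, Equiv.apply_symm_apply,
      Equiv.symm_apply_apply] at this
    rw [div_le_div_iff₀ (hu x) (hu x')] at this
    linarith
  have det : ∀ x x' y y',
      (s * u x * u y + t * w x * w y) * (s * u x' * u y' + t * w x' * w y') -
        (s * u x * u y' + t * w x * w y') * (s * u x' * u y + t * w x' * w y) =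
      s * t * ((u x * w x' - u x' * w x) * (u y * w y' - u y' * w y)) := fun x x' y y' => by ring
  rcases le_total 0 (s * t) with h | h
  · refine tp2 hE σ σ hq sq hW fun x x' y y' a b => ?_
    have := mul_nonneg h (mul_nonneg (mono x x' a) (mono y y' b))
    linarith [det x x' y y']
  · refine tp2 hE σ (σ.trans Fin.revPerm) hq sq hW fun x x' y y' a b => ?_
    simp only [Equiv.trans_apply, Fin.revPerm_apply, Fin.rev_le_rev] at b
    have := mul_nonneg (neg_nonneg.2 h) (mul_nonneg (mono x x' a) (mono y' y b))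
    linarith [det x x' y y']

/-- The adjacency relation is a sublattice for two embeddings of the vertices as sublattices of a
cube. -/
def Adm {W : Type} (G : SimpleGraph W) : Prop :=
  ∃ (n : ℕ) (α β : W → Fin n → Bool), Emb α ∧ Emb β ∧
    ∀ x x' u v y y' s t, α u = α x ⊔ α x' → α v = α x ⊓ α x' → β s = β y ⊔ β y' →
      β t = β y ⊓ β y' → G.Adj x y → G.Adj x' y' → G.Adj u s ∧ G.Adj v t

/-- Sidorenko's inequality for such targets. -/
theorem ineq_of_adm {V W : Type} [Fintype V] [Fintype W] [Nonempty W] {H : SimpleGraph V}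
    {G : SimpleGraph W} (hH : H.Colorable 2) (hG : Adm G) : Ineq H G := by
  obtain ⟨col⟩ := hH
  set side : V → Bool := fun v => decide (col v = 1)
  set E := (univ : Finset (V × V)).filter fun e => H.Adj e.1 e.2 ∧ side e.1 = false ∧ side e.2 = true
  have hE : ∀ e ∈ E, side e.1 = false ∧ side e.2 = true := fun e he => (mem_filter.1 he).2.2
  have hH₀ : ∀ u v, H.Adj u v ↔ (u, v) ∈ E ∨ (v, u) ∈ E := fun u v => by
    refine ⟨fun hadj => ?_, fun h => ?_⟩
    · have hne := col.valid hadj
      simp only [E, side, mem_filter, mem_univ, true_and, decide_eq_false_iff_not,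
        decide_eq_true_iff]
      by_cases hu : col u = 1
      · exact Or.inr ⟨hadj.symm, fun hv => hne (hu.trans hv.symm), hu⟩
      · exact Or.inl ⟨hadj, hu, by omega⟩
    · rcases h with h | h
      · exact (mem_filter.1 h).2.1
      · exact (mem_filter.1 h).2.1.symm
  refine (ineq_iff (Function.Embedding.refl W) (fun _ _ => Iff.rfl) hE hH₀).2 ?_
  obtain ⟨n, α, β, hα, hβ, hl⟩ := hG
  rw [card_map, card_univ]
  set T : ℝ := (Fintype.card W : ℝ)
  have hT : 0 < T := Nat.cast_pos.2 Fintype.card_pos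
  have := sublattice hE hα hβ (q := fun _ => 1 / T) (W := ind G) (fun _ => by positivity)
    (by rw [sum_const, nsmul_eq_mul, card_univ]; exact mul_one_div_cancel hT.ne')
    (ind_nonneg G) (fun x x' u v _ _ => le_rfl) (fun x x' u v _ _ => le_rfl)
    fun x x' u v y y' s t hu hv hs ht => by
      by_cases h : G.Adj x y ∧ G.Adj x' y'
      · obtain ⟨h1, h2⟩ := hl x x' u v y y' s t hu hv hs ht h.1 h.2
        simp [ind, h.1, h.2, h1, h2]
      · refine le_of_eq_of_le ?_ (mul_nonneg (ind_nonneg G u s) (ind_nonneg G v t))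
        rcases not_and_or.1 h with h | h <;> simp [ind, h]
  simp only [← mul_sum, prod_const, card_univ, div_pow, one_pow] at this
  rw [one_div_mul_eq_div (T ^ Fintype.card V), le_div_iff₀ (pow_pos hT _)] at this
  refine le_of_eq_of_le ?_ (this.trans_eq ?_)
  · congr 2
    simp [pairSum]
    ring
  · simp [homSum]

end Vale.Agent.P050.Lattice
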