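import Vale.Agent.P050.TwoBlock

/-!
P050: targets made of two parts with a constant weight between them inherit Sidorenko's inequality.
-/

noncomputable section

namespace Vale.Agent.P050

open Finset

variable {V W : Type*} [Fintype V] [DecidableEq V] [DecidableEq W]

/-- The weighted count of maps into `U`. -/
def homSum (a : W → W → ℝ) (U : Finset W) (E : Finset (V × V)) : ℝ :=
  ∑ f ∈ Fintype.piFinset (fun _ : V => U), ∏ e ∈ E, a (f e.1) (f e.2)

/-- The total weight of the pairs in `U`. -/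
def pairSum (a : W → W → ℝ) (U : Finset W) : ℝ := ∑ x ∈ U, ∑ y ∈ U, a x y

/-- The inequality holds on `U` for all parts of `E₀`. -/
def Good (a : W → W → ℝ) (E₀ : Finset (V × V)) (U : Finset W) : Prop :=
  ∀ E ⊆ E₀, (pairSum a U / (U.card : ℝ) ^ 2) ^ E.card * (U.card : ℝ) ^ Fintype.card V ≤
    homSum a U E

/-- `U` has two parts with weight `c` between them. -/
def Splits (a : W → W → ℝ) (U : Finset W) : Prop :=
  ∃ (U₀ U₁ : Finset W) (c : ℝ), U₀.Nonempty ∧ U₁.Nonempty ∧ Disjoint U₀ U₁ ∧ U₀ ∪ U₁ = U ∧ 0 ≤ c ∧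
    ∀ x ∈ U₀, ∀ y ∈ U₁, a x y = c

/-- Take the first map off `s` and the second on it. -/
def mix (s : V → Bool) (g h : V → W) : V → W := fun v => if s v then h v else g v

omit [Fintype V] [DecidableEq V] [DecidableEq W] in
lemma mix_mix (s : V → Bool) (g h : V → W) : mix s (mix s g h) (mix s h g) = g := by
  funext v
  cases hv : s v <;> simp [mix, hv]

omit [DecidableEq W] in
lemma pairing (s : V → Bool) (Us : Bool → Finset W) (F₀ F₁ : (V → W) → ℝ)
    (h₀ : ∀ f g, (∀ v, s v = false → f v = g v) → F₀ f = F₀ g)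
    (h₁ : ∀ f g, (∀ v, s v = true → f v = g v) → F₁ f = F₁ g) :
    (∑ g ∈ Fintype.piFinset fun _ : V => Us false, F₀ g) *
        (∑ h ∈ Fintype.piFinset fun _ : V => Us true, F₁ h) =
      (∏ v, ((Us (!(s v))).card : ℝ)) *
        ∑ f ∈ Fintype.piFinset (fun v => Us (s v)), F₀ f * F₁ f := by
  rw [sum_mul_sum, ← sum_product', mul_sum]
  have e : ∀ f, (∏ v, ((Us (!(s v))).card : ℝ)) * (F₀ f * F₁ f) =
      ∑ _g ∈ Fintype.piFinset (fun v => Us (!(s v))), F₀ f * F₁ f := fun f => by
    rw [sum_const, Fintype.card_piFinset, nsmul_eq_mul]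
    push_cast
    rfl
  rw [sum_congr rfl (fun f _ => e f), ← sum_product']
  refine sum_nbij' (fun P => (mix s P.1 P.2, mix s P.2 P.1)) (fun P => (mix s P.1 P.2, mix s P.2 P.1))
    (fun P hP => ?_) (fun P hP => ?_) (fun P _ => by simp [mix_mix]) (fun P _ => by simp [mix_mix])
    fun P _ => ?_
  · simp only [Fintype.mem_piFinset, mem_product] at hP ⊢
    refine ⟨fun v => ?_, fun v => ?_⟩ <;> cases hv : s v <;> simp [mix, hv, hP.1 v, hP.2 v]
  · simp only [Fintype.mem_piFinset, mem_product] at hP ⊢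
    refine ⟨fun v => ?_, fun v => ?_⟩ <;> have h1 := hP.1 v <;> have h2 := hP.2 v <;>
      cases hv : s v <;> simp [mix, hv] at h1 h2 ⊢ <;> assumption
  · rw [h₀ (mix s P.1 P.2) P.1 fun v hv => by simp [mix, hv],
      h₁ (mix s P.1 P.2) P.2 fun v hv => by simp [mix, hv]]

omit [Fintype V] [DecidableEq V] in
lemma prod_split (E : Finset (V × V)) (s : V → Bool) (φ : V × V → ℝ) (c : ℝ)
    (hc : ∀ e ∈ E, s e.1 ≠ s e.2 → φ e = c) :
    ∏ e ∈ E, φ e = (∏ e ∈ E.filter (fun e => s e.1 = false ∧ s e.2 = false), φ e) *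
      (∏ e ∈ E.filter (fun e => s e.1 = true ∧ s e.2 = true), φ e) *
        c ^ (E.filter fun e => s e.1 ≠ s e.2).card := by
  rw [prod_filter, prod_filter, ← prod_const, prod_filter, ← prod_mul_distrib, ← prod_mul_distrib]
  refine prod_congr rfl fun e he => ?_
  have := hc e he
  cases h1 : s e.1 <;> cases h2 : s e.2 <;> simp [h1, h2] at this ⊢ <;> exact this

/-- A split target inherits the inequality from its parts. -/
theorem good_of_split {a : W → W → ℝ} {E₀ : Finset (V × V)} {side : V → Bool}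
    (hE : ∀ e ∈ E₀, side e.1 = false ∧ side e.2 = true) (ha : ∀ x y, 0 ≤ a x y)
    (hsym : ∀ x y, a x y = a y x) {U U₀ U₁ : Finset W} {c : ℝ} (n₀ : U₀.Nonempty)
    (n₁ : U₁.Nonempty) (hd : Disjoint U₀ U₁) (hu : U₀ ∪ U₁ = U) (hc : 0 ≤ c)
    (hcross : ∀ x ∈ U₀, ∀ y ∈ U₁, a x y = c) (g₀ : Good a E₀ U₀) (g₁ : Good a E₀ U₁) :
    Good a E₀ U := by
  intro E hEE
  set Us : Bool → Finset W := fun b => if b then U₁ else U₀
  set n : Bool → ℝ := fun b => ((Us b).card : ℝ)
  set ψ : Bool → Bool → ℝ := fun b b' => if b = b' then pairSum a (Us b) / n b ^ 2 else c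
  have hn : ∀ b, 0 < n b := fun b => Nat.cast_pos.2 (card_pos.2 (by cases b <;> simpa [Us]))
  have hψ : ∀ b b', 0 ≤ ψ b b' := fun b b' => by
    simp only [ψ]
    split_ifs
    · exact div_nonneg (sum_nonneg fun x _ => sum_nonneg fun y _ => ha x y) (sq_nonneg _)
    · exact hc
  have hmem : ∀ (b : Bool) x, x ∈ Us b ↔ x ∈ U ∧ decide (x ∈ U₁) = b := fun b x => by
    have : x ∈ U ↔ x ∈ U₀ ∨ x ∈ U₁ := by rw [← hu, mem_union]
    have := fun h : x ∈ U₀ => disjoint_left.1 hd h
    cases b <;> simp [Us] <;> tauto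
  -- the maps of one side pattern
  have inner : ∀ s : V → Bool, (∏ v, n (s v)) * ∏ e ∈ E, ψ (s e.1) (s e.2) ≤
      ∑ f ∈ Fintype.piFinset (fun v => Us (s v)), ∏ e ∈ E, a (f e.1) (f e.2) := fun s => by
    set EF := E.filter fun e => s e.1 = false ∧ s e.2 = false
    set ET := E.filter fun e => s e.1 = true ∧ s e.2 = true
    set k := (E.filter fun e => s e.1 ≠ s e.2).card
    have hfa : ∀ f ∈ Fintype.piFinset (fun v => Us (s v)), ∏ e ∈ E, a (f e.1) (f e.2) =
        (∏ e ∈ EF, a (f e.1) (f e.2)) * (∏ e ∈ ET, a (f e.1) (f e.2)) * c ^ k := fun f hf =>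
      prod_split E s _ c fun e _ he => by
        have h1 := Fintype.mem_piFinset.1 hf e.1
        have h2 := Fintype.mem_piFinset.1 hf e.2
        cases e1 : s e.1 <;> cases e2 : s e.2 <;> simp [e1, e2, Us] at he h1 h2 ⊢
        · exact hcross _ h1 _ h2
        · rw [hsym]; exact hcross _ h2 _ h1
    have hfψ : ∏ e ∈ E, ψ (s e.1) (s e.2) =
        ψ false false ^ EF.card * ψ true true ^ ET.card * c ^ k := by
      rw [prod_split E s _ c fun e _ he => if_neg he]
      congr 1
      congr 1 <;> refine (prod_congr rfl fun e he => ?_).trans (prod_const _) <;>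
        rw [(mem_filter.1 he).2.1, (mem_filter.1 he).2.2]
    rw [sum_congr rfl hfa, ← sum_mul, hfψ, ← mul_assoc]
    refine mul_le_mul_of_nonneg_right ?_ (pow_nonneg hc k)
    have hp := pairing s Us (fun f => ∏ e ∈ EF, a (f e.1) (f e.2))
      (fun f => ∏ e ∈ ET, a (f e.1) (f e.2))
      (fun f g h => prod_congr rfl fun e he => by
        rw [h _ (mem_filter.1 he).2.1, h _ (mem_filter.1 he).2.2])
      fun f g h => prod_congr rfl fun e he => by
        rw [h _ (mem_filter.1 he).2.1, h _ (mem_filter.1 he).2.2]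
    have hq : 0 < ∏ v, n (!(s v)) := prod_pos fun v _ => hn _
    refine le_of_mul_le_mul_left ?_ hq
    refine le_trans ?_ hp.le
    have l₀ := g₀ EF ((filter_subset _ _).trans hEE)
    have l₁ := g₁ ET ((filter_subset _ _).trans hEE)
    refine le_trans (le_of_eq ?_) (mul_le_mul l₀ l₁ (mul_nonneg (pow_nonneg (div_nonneg
      (sum_nonneg fun x _ => sum_nonneg fun y _ => ha x y) (sq_nonneg _)) _) (by positivity))
      (sum_nonneg fun f _ => prod_nonneg fun e _ => ha _ _))
    have hnn : (∏ v, n (!(s v))) * ∏ v, n (s v) =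
        n false ^ Fintype.card V * n true ^ Fintype.card V := by
      rw [← prod_mul_distrib, ← mul_pow, ← card_univ, ← prod_const]
      refine prod_congr rfl fun v _ => ?_
      cases s v <;> simp [mul_comm]
    calc (∏ v, n (!(s v))) * ((∏ v, n (s v)) *
          (ψ false false ^ EF.card * ψ true true ^ ET.card))
        = n false ^ Fintype.card V * n true ^ Fintype.card V *
          (ψ false false ^ EF.card * ψ true true ^ ET.card) := by rw [← mul_assoc, hnn]
      _ = _ := by simp only [ψ, n, Us, if_true, Bool.false_eq_true, if_false]; ring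
  -- all patterns
  have total : ∑ s : V → Bool, (∏ v, n (s v)) * ∏ e ∈ E, ψ (s e.1) (s e.2) ≤ homSum a U E := by
    refine le_of_le_of_eq (sum_le_sum fun s _ => inner s) ?_
    rw [homSum, ← sum_fiberwise (Fintype.piFinset fun _ : V => U)
      (fun f v => decide (f v ∈ U₁))]
    refine sum_congr rfl fun s _ => sum_congr ?_ fun _ _ => rfl
    ext f
    simp only [Fintype.mem_piFinset, hmem, mem_filter, funext_iff]
    exact forall_and
  have hN : (U.card : ℝ) = n false + n true := by
    rw [← hu, card_union_of_disjoint hd]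
    simp [n, Us]
  set T := n false + n true
  have hT : 0 < T := add_pos (hn _) (hn _)
  have two := two_block (E := E) (fun e he => hE e (hEE he)) (q := fun b => n b / T) (ψ := ψ)
    (fun b => div_pos (hn b) hT) (by rw [Fintype.sum_bool, ← add_div, add_comm, div_self hT.ne'])
    hψ fun b b' => by cases b <;> cases b' <;> simp [ψ]
  have hD : pairSum a U = pairSum a U₀ + pairSum a U₁ + 2 * c * (n false * n true) := by
    have h01 : ∑ x ∈ U₀, ∑ y ∈ U₁, a x y = n false * n true * c := by
      rw [sum_congr rfl fun x hx => sum_congr rfl fun y hy => hcross x hx y hy]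
      simp [n, Us]; ring
    have h10 : ∑ x ∈ U₁, ∑ y ∈ U₀, a x y = n false * n true * c := by
      rw [sum_comm, ← h01]
      exact sum_congr rfl fun x _ => sum_congr rfl fun y _ => hsym _ _
    simp only [pairSum, ← hu, sum_union hd, sum_add_distrib, h01, h10]
    ring
  refine le_trans ?_ total
  have hZ : ∑ s : V → Bool, (∏ v, n (s v)) * ∏ e ∈ E, ψ (s e.1) (s e.2) =
      T ^ Fintype.card V * Z E (fun _ b => n b / T) ψ := by
    rw [Z, mul_sum]
    refine sum_congr rfl fun s _ => ?_
    rw [← mul_assoc, prod_div_distrib, prod_const, card_univ,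
      mul_div_cancel₀ _ (pow_ne_zero _ hT.ne')]
  rw [hZ, hN, mul_comm]
  refine mul_le_mul_of_nonneg_left (le_of_eq_of_le ?_ two) (pow_nonneg hT.le _)
  congr 1
  rw [hD]
  have := (hn false).ne'
  have := (hn true).ne'
  simp only [Fintype.sum_bool, ψ, Bool.true_eq_false, Bool.false_eq_true, if_true, if_false]
  simp only [Us, if_true, Bool.false_eq_true, if_false]
  field_simp
  ring

/-- Targets all of whose unsplit parts are good are good. -/
theorem good_of_parts {a : W → W → ℝ} {E₀ : Finset (V × V)} {side : V → Bool}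
    (hE : ∀ e ∈ E₀, side e.1 = false ∧ side e.2 = true) (ha : ∀ x y, 0 ≤ a x y)
    (hsym : ∀ x y, a x y = a y x) (hirr : ∀ x, a x x = 0) (U : Finset W)
    (h : ∀ X ⊆ U, 2 ≤ X.card → ¬ Splits a X → Good a E₀ X) (hU : U.Nonempty) : Good a E₀ U := by
  induction U using Finset.strongInduction with
  | H U ih =>
    by_cases h1 : U.card = 1
    · obtain ⟨x, rfl⟩ := card_eq_one.1 h1
      intro E _
      have hD : pairSum a {x} = 0 := by simp [pairSum, hirr]
      rcases E.eq_empty_or_nonempty with rfl | hne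
      · simp [homSum]
      · rw [hD, zero_div, zero_pow hne.card_pos.ne', zero_mul]
        exact sum_nonneg fun f _ => prod_nonneg fun e _ => ha _ _
    have h2 : 2 ≤ U.card := by have := hU.card_pos; omega
    by_cases hs : Splits a U
    · obtain ⟨U₀, U₁, c, n₀, n₁, hd, hu, hc, hcross⟩ := hs
      have s₀ : U₀ ⊂ U := by
        refine (ssubset_iff_of_subset (hu ▸ subset_union_left)).2 ?_
        obtain ⟨y, hy⟩ := n₁
        exact ⟨y, hu ▸ mem_union_right _ hy, disjoint_right.1 hd hy⟩
      have s₁ : U₁ ⊂ U := by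
        refine (ssubset_iff_of_subset (hu ▸ subset_union_right)).2 ?_
        obtain ⟨y, hy⟩ := n₀
        exact ⟨y, hu ▸ mem_union_left _ hy, disjoint_left.1 hd hy⟩
      exact good_of_split hE ha hsym n₀ n₁ hd hu hc hcross
        (ih U₀ s₀ (fun X hX => h X (hX.trans s₀.subset)) n₀)
        (ih U₁ s₁ (fun X hX => h X (hX.trans s₁.subset)) n₁)
    · exact h U Subset.rfl h2 hs

end Vale.Agent.P050
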