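import Vale.Agent.P050.Fibre
import Mathlib.Analysis.SpecificLimits.Normed
import Mathlib.Logic.Equiv.Fintype

/-!
P050: Sidorenko's inequality for two blocks.

The average over the `N`-lifts of a graph has at least the expected count up to a polynomial factor,
as seen from the terms with the two most likely profiles on the two sides, and each lift has at most
the `N`-th power of the count of the graph when the edge weight is log-supermodular.
-/

noncomputable section

namespace Vale.Agent.P050

open Finset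

variable {N : ℕ}

lemma prod_ite_cnt (T : Fin N → Bool) (β : ℝ) :
    ∏ i, (if T i = true then β else 1) = β ^ cnt T := by
  rw [prod_ite, prod_const, prod_const_one, mul_one, cnt]

lemma cnt_decide {k : ℕ} (hk : k ≤ N) : cnt (fun i : Fin N => decide (i.val < k)) = k := by
  have : (univ.filter fun i : Fin N => decide (i.val < k) = true).map Fin.valEmbedding = range k := by
    ext j
    simp only [mem_map, mem_filter, mem_univ, true_and, decide_eq_true_iff, Fin.valEmbedding_apply,
      mem_range]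
    exact ⟨fun ⟨i, hi, e⟩ => e ▸ hi, fun hj => ⟨⟨j, by omega⟩, hj, rfl⟩⟩
  rw [cnt, ← card_map Fin.valEmbedding, this, card_range]

lemma cnt_comp (T : Fin N → Bool) (π : Equiv.Perm (Fin N)) : cnt (T ∘ π) = cnt T := by
  simp only [cnt, card_filter]
  exact Equiv.sum_comp π fun i => if T i = true then 1 else 0

/-- Weight of a string of bits. -/
def w (q : Bool → ℝ) (T : Fin N → Bool) : ℝ := ∏ i, q (T i)

lemma w_eq {q : Bool → ℝ} (hq : ∀ a, 0 < q a) (T : Fin N → Bool) :
    w q T = q false ^ N * (q true / q false) ^ cnt T := by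
  have h : ∀ b : Bool, q b = q false * if b = true then q true / q false else 1 := fun b => by
    cases b
    · simp
    · simp [mul_div_cancel₀ _ (hq false).ne']
  rw [w, prod_congr rfl (fun i _ => h (T i)), prod_mul_distrib, prod_const, card_univ,
    Fintype.card_fin, prod_ite_cnt]

lemma pair_sort {ψ : Bool → Bool → ℝ} (hp : ∀ a b, 0 < ψ a b)
    (hs : ψ false true * ψ true false ≤ ψ true true * ψ false false) (A B : Fin N → Bool) :
    ∏ i, ψ (A i) (B i) ≤
      ∏ i : Fin N, ψ (decide (i.val < cnt A)) (decide (i.val < cnt B)) := by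
  set β := ψ true false / ψ false false
  set γ := ψ false true / ψ false false
  set δ := ψ true true * ψ false false / (ψ false true * ψ true false)
  have h00 := (hp false false).ne'
  have h01 := (hp false true).ne'
  have h10 := (hp true false).ne'
  have e : ∀ a b, ψ a b = ψ false false * (if a = true then β else 1) *
      (if b = true then γ else 1) * if (a && b) = true then δ else 1 := fun a b => by
    cases a <;> cases b <;> simp [β, γ, δ] <;> field_simp
  have hb : ∀ A B : Fin N → Bool, ∏ i, ψ (A i) (B i) =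
      ψ false false ^ N * β ^ cnt A * γ ^ cnt B * δ ^ cnt (fun i => A i && B i) := fun A B => by
    rw [prod_congr rfl (fun i _ => e (A i) (B i)), prod_mul_distrib, prod_mul_distrib,
      prod_mul_distrib, prod_const, card_univ, Fintype.card_fin, prod_ite_cnt, prod_ite_cnt,
      prod_ite_cnt (fun i => A i && B i)]
  rw [hb, hb (fun i => decide (i.val < cnt A)) fun i => decide (i.val < cnt B),
    cnt_decide (cnt_le A), cnt_decide (cnt_le B)]
  refine mul_le_mul_of_nonneg_left (pow_le_pow_right₀ ?_ ?_)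
    (mul_nonneg (mul_nonneg (pow_nonneg (hp _ _).le _) (pow_nonneg (div_nonneg (hp _ _).le
      (hp _ _).le) _)) (pow_nonneg (div_nonneg (hp _ _).le (hp _ _).le) _))
  · rw [le_div_iff₀ (mul_pos (hp _ _) (hp _ _)), one_mul]
    exact hs
  · have e2 : (fun i : Fin N => decide (i.val < cnt A) && decide (i.val < cnt B)) =
        fun i : Fin N => decide (i.val < min (cnt A) (cnt B)) := by
      funext i
      simp [Bool.decide_and]
    rw [e2, cnt_decide (le_trans (min_le_left _ _) (cnt_le A))]
    refine le_min ?_ ?_ <;> refine cnt_mono fun i => ?_ <;> cases A i <;> cases B i <;> simp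

lemma lsm_pair {ψ : Bool → Bool → ℝ}
    (hs : ψ false true * ψ true false ≤ ψ true true * ψ false false) :
    LSM fun a : Bool × Bool => ψ a.1 a.2 := by
  rintro ⟨a, b⟩ ⟨c, d⟩
  cases a <;> cases b <;> cases c <;> cases d <;> simp [Prod.sup_def, Prod.inf_def, mul_comm] <;>
    linarith

lemma lsm_single {q : Bool → ℝ} : LSM q := fun a b => by
  cases a <;> cases b <;> simp [mul_comm]

/-- The pairs of strings averaged over matchings. -/
def S (ψ : Bool → Bool → ℝ) (A B : Fin N → Bool) : ℝ :=
  ∑ π : Equiv.Perm (Fin N), ∏ i, ψ (A i) (B (π i))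

lemma exists_perm {A A' : Fin N → Bool} (h : cnt A = cnt A') :
    ∃ π : Equiv.Perm (Fin N), A' ∘ π = A := by
  have hc : Fintype.card { i // A i = true } = Fintype.card { i // A' i = true } := by
    rw [Fintype.card_subtype, Fintype.card_subtype]
    exact h
  obtain ⟨e⟩ := Fintype.card_eq.1 hc
  refine ⟨e.extendSubtype, funext fun i => ?_⟩
  show A' (e.extendSubtype i) = A i
  by_cases hi : A i = true
  · rw [hi, e.extendSubtype_mem i hi]
  · rw [Bool.eq_false_iff.2 hi, Bool.eq_false_iff.2 (e.extendSubtype_not_mem i hi)]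

lemma S_congr (ψ : Bool → Bool → ℝ) {A A' B B' : Fin N → Bool} (ha : cnt A = cnt A')
    (hb : cnt B = cnt B') : S ψ A B = S ψ A' B' := by
  obtain ⟨α, rfl⟩ := exists_perm ha
  obtain ⟨β, rfl⟩ := exists_perm hb
  refine Fintype.sum_equiv ((Equiv.mulRight α⁻¹).trans (Equiv.mulLeft β)) _ _ fun π => ?_
  refine Fintype.prod_equiv α _ _ fun i => ?_
  simp [Equiv.Perm.mul_apply]

/-- Total weight of the strings with `j` ones. -/
def Bc (N : ℕ) (q : Bool → ℝ) (j : ℕ) : ℝ :=
  ∑ T ∈ (univ : Finset (Fin N → Bool)).filter (fun T => cnt T = j), w q T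

lemma Bc_nonneg {q : Bool → ℝ} (hq : ∀ a, 0 < q a) (j : ℕ) : 0 ≤ Bc N q j :=
  sum_nonneg fun _ _ => prod_nonneg fun _ _ => (hq _).le

lemma sum_w {q : Bool → ℝ} (h1 : ∑ a, q a = 1) : ∑ T : Fin N → Bool, w q T = 1 := by
  simp only [w]
  rw [← Fintype.prod_sum fun (_ : Fin N) a => q a, h1, prod_const_one]

lemma sum_Bc {q : Bool → ℝ} (h1 : ∑ a, q a = 1) : ∑ j ∈ range (N + 1), Bc N q j = 1 := by
  simp only [Bc]
  rw [sum_fiberwise_of_maps_to fun T _ => mem_range.2 (Nat.lt_succ_of_le (cnt_le T))]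
  exact sum_w h1

lemma Bc_le_one {q : Bool → ℝ} (hq : ∀ a, 0 < q a) (h1 : ∑ a, q a = 1) (j : ℕ) :
    Bc N q j ≤ 1 :=
  (sum_le_sum_of_subset_of_nonneg (filter_subset _ _)
    fun _ _ _ => prod_nonneg fun _ _ => (hq _).le).trans_eq (sum_w h1)

lemma exists_mode {q : Bool → ℝ} (h1 : ∑ a, q a = 1) :
    ∃ j, 1 / ((N : ℝ) + 1) ≤ Bc N q j := by
  obtain ⟨j, hj, hmax⟩ := exists_max_image (range (N + 1)) (Bc N q)
    ⟨0, mem_range.2 N.succ_pos⟩
  refine ⟨j, ?_⟩
  have := sum_le_card_nsmul _ _ _ hmax
  rw [sum_Bc h1, card_range, nsmul_eq_mul] at this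
  push_cast at this
  rw [div_le_iff₀ (by positivity)]
  linarith

lemma sum_pairs (qA qB : Bool → ℝ) (ψ : Bool → Bool → ℝ) :
    ∑ A : Fin N → Bool, ∑ B : Fin N → Bool, w qA A * w qB B * S ψ A B =
      Fintype.card (Equiv.Perm (Fin N)) * (∑ a, ∑ b, qA a * qB b * ψ a b) ^ N := by
  simp only [S, mul_sum]
  rw [sum_congr rfl (fun A _ => sum_comm), sum_comm]
  have h : ∀ π : Equiv.Perm (Fin N),
      ∑ A : Fin N → Bool, ∑ B : Fin N → Bool, w qA A * w qB B * ∏ i, ψ (A i) (B (π i)) =
        (∑ a, ∑ b, qA a * qB b * ψ a b) ^ N := fun π => by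
    calc _ = ∑ A : Fin N → Bool, ∑ B : Fin N → Bool,
          ∏ i, qA (A i) * qB (B i) * ψ (A i) (B i) := by
            refine sum_congr rfl fun A _ => ?_
            refine Fintype.sum_equiv (π.arrowCongr (Equiv.refl Bool)).symm _ _ fun B => ?_
            simp only [w]
            rw [← Equiv.prod_comp π fun i => qB (B i), ← prod_mul_distrib, ← prod_mul_distrib]
            exact prod_congr rfl fun i _ => by simp
      _ = ∑ A : Fin N → Bool, ∏ i, ∑ b, qA (A i) * qB b * ψ (A i) b := by
            refine sum_congr rfl fun A _ => ?_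
            rw [← Fintype.prod_sum fun i b => qA (A i) * qB b * ψ (A i) b]
      _ = _ := by
            rw [← Fintype.prod_sum fun (_ : Fin N) a => ∑ b, qA a * qB b * ψ a b, prod_const,
              card_univ, Fintype.card_fin]
  rw [sum_congr rfl fun π _ => h π, sum_const, card_univ, nsmul_eq_mul]

lemma exists_profiles (qA qB : Bool → ℝ) (ψ : Bool → Bool → ℝ) :
    ∃ A₀ B₀ : Fin N → Bool,
      Fintype.card (Equiv.Perm (Fin N)) * (∑ a, ∑ b, qA a * qB b * ψ a b) ^ N /
        ((N : ℝ) + 1) ^ 2 ≤ Bc N qA (cnt A₀) * Bc N qB (cnt B₀) * S ψ A₀ B₀ := by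
  obtain ⟨A₀, -, hm⟩ := exists_max_image (univ : Finset ((Fin N → Bool) × (Fin N → Bool)))
    (fun P => Bc N qA (cnt P.1) * Bc N qB (cnt P.2) * S ψ P.1 P.2) univ_nonempty
  refine ⟨A₀.1, A₀.2, ?_⟩
  rw [div_le_iff₀ (by positivity), ← sum_pairs qA qB ψ]
  have hcls : ∀ A B : Fin N → Bool,
      ∑ A' ∈ (univ : Finset (Fin N → Bool)).filter (fun T => cnt T = cnt A),
        ∑ B' ∈ (univ : Finset (Fin N → Bool)).filter (fun T => cnt T = cnt B),
          w qA A' * w qB B' * S ψ A' B' = Bc N qA (cnt A) * Bc N qB (cnt B) * S ψ A B := by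
    intro A B
    simp only [Bc]
    rw [sum_mul_sum, sum_mul]
    refine sum_congr rfl fun A' hA' => ?_
    rw [sum_mul]
    refine sum_congr rfl fun B' hB' => ?_
    rw [S_congr ψ (mem_filter.1 hA').2 (mem_filter.1 hB').2]
  have e : ∑ A : Fin N → Bool, ∑ B : Fin N → Bool, w qA A * w qB B * S ψ A B =
      ∑ j ∈ range (N + 1), ∑ k ∈ range (N + 1),
        ∑ A' ∈ (univ : Finset (Fin N → Bool)).filter (fun T => cnt T = j),
          ∑ B' ∈ (univ : Finset (Fin N → Bool)).filter (fun T => cnt T = k),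
            w qA A' * w qB B' * S ψ A' B' := by
    rw [← sum_fiberwise_of_maps_to (t := range (N + 1)) (g := fun T : Fin N → Bool => cnt T)
      (fun T _ => mem_range.2 (Nat.lt_succ_of_le (cnt_le T)))]
    refine sum_congr rfl fun j _ => ?_
    rw [sum_comm (s := range (N + 1))]
    refine sum_congr rfl fun A _ => ?_
    exact (sum_fiberwise_of_maps_to (fun T _ => mem_range.2 (Nat.lt_succ_of_le (cnt_le T))) _).symm
  have hrep : ∀ j, j ≤ N → ∃ T : Fin N → Bool, cnt T = j := fun j hj => ⟨_, cnt_decide hj⟩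
  rw [e]
  calc _ ≤ ∑ j ∈ range (N + 1), ∑ k ∈ range (N + 1),
        Bc N qA (cnt A₀.1) * Bc N qB (cnt A₀.2) * S ψ A₀.1 A₀.2 := by
          refine sum_le_sum fun j hj => sum_le_sum fun k hk => ?_
          obtain ⟨A, rfl⟩ := hrep j (Nat.le_of_lt_succ (mem_range.1 hj))
          obtain ⟨B, rfl⟩ := hrep k (Nat.le_of_lt_succ (mem_range.1 hk))
          exact (hcls A B).trans_le (hm (A, B) (mem_univ _))
    _ = _ := by
          simp only [sum_const, card_range, nsmul_eq_mul]
          push_cast
          ring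

/-! ### Graphs with two sides -/

variable {V : Type*} [Fintype V] [DecidableEq V]

/-- The weighted count of maps to two blocks. -/
def Z (E : Finset (V × V)) (qs : V → Bool → ℝ) (ψ : Bool → Bool → ℝ) : ℝ :=
  ∑ x : V → Bool, (∏ v, qs v (x v)) * ∏ e ∈ E, ψ (x e.1) (x e.2)

lemma lift_bound {E : Finset (V × V)} {qs : V → Bool → ℝ} {ψ : Bool → Bool → ℝ}
    (hq : ∀ v a, 0 < qs v a) (hp : ∀ a b, 0 < ψ a b)
    (hs : ψ false true * ψ true false ≤ ψ true true * ψ false false)
    (σ : E → Equiv.Perm (Fin N)) :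
    ∑ x : V → Fin N → Bool, (∏ v, w (qs v) (x v)) *
      ∏ e : E, ∏ i, ψ (x e.1.1 i) (x e.1.2 (σ e i)) ≤ Z E qs ψ ^ N := by
  have hZ : Z E qs ψ = ∑ x : V → Bool, (∏ v, qs v (x v)) * ∏ e : E, ψ (x e.1.1) (x e.1.2) :=
    sum_congr rfl fun x _ => by rw [prod_coe_sort E fun e => ψ (x e.1) (x e.2)]
  rw [hZ]
  refine cover_bound (fun a => (∏ v, qs v (a v)) * ∏ e : E, ψ (a e.1.1) (a e.1.2)) _
    (fun a => mul_pos (prod_pos fun v _ => hq v _) (prod_pos fun e _ => hp _ _))
    (LSM.mul (LSM.prod _ (fun v _ => lsm_single.comp (fun a : V → Bool => a v) (fun _ _ => rfl)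
      fun _ _ => rfl) fun v _ a => (hq v _).le)
      (LSM.prod _ (fun e _ => (lsm_pair hs).comp (fun a : V → Bool => (a e.1.1, a e.1.2))
        (fun _ _ => rfl) fun _ _ => rfl) fun e _ a => (hp _ _).le)
      (fun a => prod_nonneg fun v _ => (hq v _).le) fun a => prod_nonneg fun e _ => (hp _ _).le)
    (fun x => mul_pos (prod_pos fun v _ => prod_pos fun i _ => hq v _)
      (prod_pos fun e _ => prod_pos fun i _ => hp _ _))
    (LSM.mul (LSM.prod _ (fun v _ => LSM.prod _ (fun i _ => lsm_single.comp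
        (fun x : V → Fin N → Bool => x v i) (fun _ _ => rfl) fun _ _ => rfl)
        fun i _ a => (hq v _).le) fun v _ a => prod_nonneg fun i _ => (hq v _).le)
      (LSM.prod _ (fun e _ => LSM.prod _ (fun i _ => (lsm_pair hs).comp
        (fun x : V → Fin N → Bool => (x e.1.1 i, x e.1.2 (σ e i))) (fun _ _ => rfl)
        fun _ _ => rfl) fun i _ a => (hp _ _).le) fun e _ a => prod_nonneg fun i _ => (hp _ _).le)
      (fun x => prod_nonneg fun v _ => prod_nonneg fun i _ => (hq v _).le)
      fun x => prod_nonneg fun e _ => prod_nonneg fun i _ => (hp _ _).le)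
    fun x => ?_
  rw [prod_mul_distrib, prod_comm (s := (univ : Finset (Fin N))) (t := (univ : Finset V)),
    prod_comm (s := (univ : Finset (Fin N))) (t := (univ : Finset E))]
  refine mul_le_mul (le_of_eq (prod_congr rfl fun v _ => ?_))
    (prod_le_prod (fun e _ => prod_nonneg fun i _ => (hp _ _).le) fun e _ => ?_)
    (prod_nonneg fun e _ => prod_nonneg fun i _ => (hp _ _).le)
    (prod_nonneg fun v _ => prod_nonneg fun i _ => (hq v _).le)
  · show w (qs v) (x v) = w (qs v) fun i : Fin N => decide (i.val < cnt (x v))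
    rw [w_eq (hq v), w_eq (hq v), cnt_decide (cnt_le _)]
  · refine (pair_sort hp hs (x e.1.1) (x e.1.2 ∘ σ e)).trans_eq ?_
    rw [cnt_comp]
    rfl

theorem two_block_oriented {E : Finset (V × V)} {side : V → Bool}
    (hE : ∀ e ∈ E, side e.1 = false ∧ side e.2 = true) {qA qB : Bool → ℝ}
    {ψ : Bool → Bool → ℝ} (hA : ∀ a, 0 < qA a) (hB : ∀ a, 0 < qB a) (sA : ∑ a, qA a = 1)
    (sB : ∑ a, qB a = 1) (hp : ∀ a b, 0 < ψ a b)
    (hs : ψ false true * ψ true false ≤ ψ true true * ψ false false) :
    (∑ a, ∑ b, qA a * qB b * ψ a b) ^ E.card ≤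
      Z E (fun v => if side v then qB else qA) ψ := by
  set qs := fun v => if side v then qB else qA with hqs
  have hq : ∀ v a, 0 < qs v a := fun v a => by by_cases h : side v <;> simp [qs, h, hA, hB]
  have sq : ∀ v, ∑ a, qs v a = 1 := fun v => by by_cases h : side v <;> simp only [qs, h, if_true, Bool.false_eq_true, if_false, sA, sB]
  set p := ∑ a, ∑ b, qA a * qB b * ψ a b
  set m := E.card
  have hpp : 0 < p := sum_pos (fun a _ => sum_pos (fun b _ =>
    mul_pos (mul_pos (hA a) (hB b)) (hp a b)) univ_nonempty) univ_nonempty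
  have hZ : 0 < Z E qs ψ := sum_pos (fun x _ => mul_pos (prod_pos fun v _ => hq v _)
    (prod_pos fun e _ => hp _ _)) univ_nonempty
  suffices key : ∀ N : ℕ, (p ^ m) ^ N ≤
      ((N : ℝ) + 1) ^ (2 * m + Fintype.card V) * Z E qs ψ ^ N by
    by_contra hlt
    push Not at hlt
    set d := 2 * m + Fintype.card V
    set ρ := Z E qs ψ / p ^ m
    have hρ1 : ρ < 1 := (div_lt_one (pow_pos hpp m)).2 hlt
    have hρ0 : 0 < ρ := div_pos hZ (pow_pos hpp m)
    have t := tendsto_pow_const_mul_const_pow_of_abs_lt_one d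
      (show |ρ| < 1 by rwa [abs_of_pos hρ0])
    obtain ⟨n, hn, h1⟩ := ((t.eventually_lt_const (show (0 : ℝ) < 1 / 2 ^ d by positivity)).and
      (Filter.eventually_ge_atTop 1)).exists
    have hb : ((n : ℝ) + 1) ^ d ≤ 2 ^ d * (n : ℝ) ^ d := by
      rw [← mul_pow]
      refine pow_le_pow_left₀ (by positivity) ?_ d
      have : (1 : ℝ) ≤ n := by exact_mod_cast h1
      linarith
    have k := key n
    have : (1 : ℝ) ≤ ((n : ℝ) + 1) ^ d * ρ ^ n := by
      rw [div_pow, ← mul_div_assoc, le_div_iff₀ (by positivity), one_mul]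
      exact k
    have h2 : ((n : ℝ) + 1) ^ d * ρ ^ n ≤ 2 ^ d * ((n : ℝ) ^ d * ρ ^ n) := by
      rw [← mul_assoc]
      exact mul_le_mul_of_nonneg_right hb (by positivity)
    rw [lt_div_iff₀ (by positivity)] at hn
    linarith
  intro N
  set K : ℝ := (Fintype.card (Equiv.Perm (Fin N)) : ℝ) with hKdef
  have hK : 0 < K := by rw [hKdef]; exact Nat.cast_pos.2 Fintype.card_pos
  -- the average over the lifts
  have avg : ∑ x : V → Fin N → Bool, (∏ v, w (qs v) (x v)) *
      ∏ e : E, S ψ (x e.1.1) (x e.1.2) ≤ K ^ m * Z E qs ψ ^ N := by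
    have h := sum_le_sum (s := (univ : Finset (E → Equiv.Perm (Fin N))))
      fun σ _ => lift_bound (N := N) hq hp hs σ
    rw [sum_const, card_univ, Fintype.card_fun, Fintype.card_coe, nsmul_eq_mul, Nat.cast_pow,
      sum_comm] at h
    refine le_of_eq_of_le (sum_congr rfl fun x _ => ?_) h
    rw [← mul_sum]
    exact congrArg _ (Fintype.prod_sum fun (e : E) (π : Equiv.Perm (Fin N)) =>
      ∏ i, ψ (x e.1.1 i) (x e.1.2 (π i)))
  obtain ⟨A₀, B₀, hAB⟩ := exists_profiles (N := N) qA qB ψ
  set bA := Bc N qA (cnt A₀)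
  set bB := Bc N qB (cnt B₀)
  set ε := 1 / ((N : ℝ) + 1) with hε
  have hε0 : 0 ≤ ε := by positivity
  have hε1 : ε ≤ 1 := (div_le_one (by positivity)).2 (by linarith [show (0 : ℝ) ≤ N from N.cast_nonneg])
  have a0 := Bc_nonneg (N := N) hA (cnt A₀)
  have b0 := Bc_nonneg (N := N) hB (cnt B₀)
  have a1 := Bc_le_one (N := N) hA sA (cnt A₀)
  have b1 := Bc_le_one (N := N) hB sB (cnt B₀)
  set As := E.image Prod.fst
  set Bs := E.image Prod.snd
  have sideA : ∀ v ∈ As, side v = false := fun v hv => by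
    obtain ⟨e, he, rfl⟩ := mem_image.1 hv
    exact (hE e he).1
  have sideB : ∀ v ∈ Bs, side v = true := fun v hv => by
    obtain ⟨e, he, rfl⟩ := mem_image.1 hv
    exact (hE e he).2
  choose mode hmode using fun v => exists_mode (N := N) (sq v)
  set jv := fun v => if v ∈ As then cnt A₀ else if v ∈ Bs then cnt B₀ else mode v
  have hv : ∀ v, (if v ∈ As then bA else 1) * (if v ∈ Bs then bB else 1) * ε ≤
      Bc N (qs v) (jv v) := fun v => by
    by_cases ha : v ∈ As
    · have hb : v ∉ Bs := fun h => by have := sideA v ha; rw [sideB v h] at this; cases this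
      simp only [qs, jv, ha, hb, if_true, if_false, sideA v ha, Bool.false_eq_true, mul_one]
      exact mul_le_of_le_one_right a0 hε1
    · by_cases hb : v ∈ Bs
      · simp only [qs, jv, ha, hb, if_true, if_false, sideB v hb, one_mul]
        exact mul_le_of_le_one_right b0 hε1
      · simp only [jv, ha, hb, if_false, one_mul]
        exact hmode v
  have hprod : bA ^ m * bB ^ m * ε ^ Fintype.card V ≤ ∏ v, Bc N (qs v) (jv v) := by
    refine le_trans ?_ (prod_le_prod (fun v _ => by
      refine mul_nonneg (mul_nonneg ?_ ?_) hε0 <;> split_ifs <;>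
        first | exact a0 | exact b0 | exact zero_le_one) fun v _ => hv v)
    rw [prod_mul_distrib, prod_mul_distrib, prod_const, card_univ, prod_ite_mem, prod_ite_mem,
      univ_inter, univ_inter, prod_const, prod_const]
    refine mul_le_mul_of_nonneg_right (mul_le_mul ?_ ?_ (pow_nonneg b0 _) (pow_nonneg a0 _))
      (pow_nonneg hε0 _)
    · exact pow_le_pow_of_le_one a0 a1 card_image_le
    · exact pow_le_pow_of_le_one b0 b1 card_image_le
  set S₀ := S ψ A₀ B₀
  have hS : 0 ≤ S₀ := sum_nonneg fun π _ => prod_nonneg fun i _ => (hp _ _).le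
  have low : S₀ ^ m * ∏ v, Bc N (qs v) (jv v) ≤ K ^ m * Z E qs ψ ^ N := by
    refine le_trans ?_ avg
    simp only [Bc]
    rw [prod_univ_sum, mul_sum]
    refine le_trans (le_of_eq (sum_congr rfl fun x hx => ?_))
      (sum_le_univ_sum_of_nonneg fun x => mul_nonneg (prod_nonneg fun v _ => prod_nonneg fun i _ =>
        (hq v _).le) (prod_nonneg fun e _ => sum_nonneg fun π _ => prod_nonneg fun i _ =>
          (hp _ _).le))
    rw [mul_comm]
    refine congrArg _ ?_
    have hc : ∀ e : E, S ψ (x e.1.1) (x e.1.2) = S₀ := fun e => by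
      have hx' := fun v => (mem_filter.1 (Fintype.mem_piFinset.1 hx v)).2
      have ha : e.1.1 ∈ As := mem_image_of_mem _ e.2
      have hb : e.1.2 ∈ Bs := mem_image_of_mem _ e.2
      have hb' : e.1.2 ∉ As := fun h => by
        have := sideA _ h; rw [sideB _ hb] at this; cases this
      exact S_congr ψ ((hx' _).trans (if_pos ha)) ((hx' _).trans ((if_neg hb').trans (if_pos hb)))
    rw [prod_congr rfl (fun e _ => hc e), prod_const, card_univ, Fintype.card_coe]
  have main : (K * p ^ N * ε ^ 2) ^ m * ε ^ Fintype.card V ≤ K ^ m * Z E qs ψ ^ N := by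
    refine le_trans ?_ low
    refine le_trans (mul_le_mul_of_nonneg_right (pow_le_pow_left₀ (by positivity)
      (show K * p ^ N * ε ^ 2 ≤ bA * bB * S₀ by
        refine le_of_eq_of_le ?_ hAB
        rw [hε, one_div, inv_pow, div_eq_mul_inv]) m) (pow_nonneg hε0 _)) ?_
    rw [show (bA * bB * S₀) ^ m * ε ^ Fintype.card V =
      S₀ ^ m * (bA ^ m * bB ^ m * ε ^ Fintype.card V) by rw [mul_pow, mul_pow]; ring]
    exact mul_le_mul_of_nonneg_left hprod (pow_nonneg hS _)
  rw [show (K * p ^ N * ε ^ 2) ^ m * ε ^ Fintype.card V =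
    K ^ m * ((p ^ m) ^ N * ε ^ (2 * m + Fintype.card V)) by
      rw [mul_pow, mul_pow, ← pow_mul, ← pow_mul, ← pow_mul, pow_add, mul_comm N m]; ring] at main
  have := le_of_mul_le_mul_left main (pow_pos hK m)
  rw [hε, one_div, inv_pow, ← div_eq_mul_inv, div_le_iff₀ (by positivity)] at this
  linarith

/-- Sidorenko's inequality for two blocks. -/
theorem two_block {E : Finset (V × V)} {side : V → Bool}
    (hE : ∀ e ∈ E, side e.1 = false ∧ side e.2 = true) {q : Bool → ℝ} {ψ : Bool → Bool → ℝ}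
    (hq : ∀ a, 0 < q a) (sq : ∑ a, q a = 1) (hp : ∀ a b, 0 ≤ ψ a b)
    (hsym : ∀ a b, ψ a b = ψ b a) :
    (∑ a, ∑ b, q a * q b * ψ a b) ^ E.card ≤ Z E (fun _ => q) ψ := by
  have pos : ∀ φ : Bool → Bool → ℝ, (∀ a b, 0 < φ a b) → (∀ a b, φ a b = φ b a) →
      (∑ a, ∑ b, q a * q b * φ a b) ^ E.card ≤ Z E (fun _ => q) φ := by
    intro φ hφ hφs
    rcases le_or_gt (φ false true * φ true false) (φ true true * φ false false) with h | h
    · have := two_block_oriented hE hq hq sq sq hφ h
      simpa only [ite_self] using this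
    · have := two_block_oriented (qA := q) (qB := fun a => q (!a)) (ψ := fun a b => φ a (!b)) hE hq
        (fun a => hq _) sq (by simp only [Fintype.sum_bool] at sq ⊢; simp; linarith)
        (fun a b => hφ _ _) (by simp only [Bool.not_true, Bool.not_false]; linarith)
      refine le_of_eq_of_le ?_ (this.trans_eq ?_)
      · simp only [Fintype.sum_bool, Bool.not_true, Bool.not_false]
        ring_nf
      · have hinv : ∀ x : V → Bool, (fun v => if side v then !(if side v then !(x v) else x v)
            else if side v then !(x v) else x v) = x := fun x => by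
          funext v
          by_cases h : side v <;> simp [h]
        let flip : (V → Bool) ≃ (V → Bool) :=
          ⟨fun x v => if side v then !(x v) else x v, fun x v => if side v then !(x v) else x v,
            hinv, hinv⟩
        refine Fintype.sum_equiv flip _ _ fun x => ?_
        refine congrArg₂ (· * ·) (prod_congr rfl fun v _ => ?_) (prod_congr rfl fun e he => ?_)
        · by_cases h : side v <;> simp [flip, h]
        · simp [flip, (hE e he).1, (hE e he).2]
  set f := fun t : ℝ => (∑ a, ∑ b, q a * q b * (ψ a b + t)) ^ E.card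
  set g := fun t : ℝ => Z E (fun _ => q) fun a b => ψ a b + t
  have hf : Continuous f := by fun_prop
  have hg : Continuous g := by unfold g Z; fun_prop
  have := le_of_tendsto_of_tendsto (b := nhdsWithin (0 : ℝ) (Set.Ioi 0))
    (hf.tendsto 0 |>.mono_left nhdsWithin_le_nhds) (hg.tendsto 0 |>.mono_left nhdsWithin_le_nhds)
    (eventually_nhdsWithin_of_forall fun t (ht : 0 < t) =>
      pos _ (fun a b => add_pos_of_nonneg_of_pos (hp a b) ht) fun a b => by rw [hsym])
  simpa [f, g] using this

end Vale.Agent.P050
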